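import Vale.Agent.P207.Q.H916.Fr3

/-!
# P207, n = 3, block A3: smooth retraction (Gram-Schmidt) onto orthonormal families, in a chart
-/

open scoped Manifold ContDiff ENNReal Topology
open Bundle MeasureTheory Set Filter Topology

noncomputable section

set_option maxSynthPendingDepth 3
set_option linter.unusedSectionVars false

namespace Vale.Agent.P207.Q

open Vale.Agent.P255 (RMetric coefIn Gam Riem IsGeo Metric Npc ExpSys toMetric geo expg cc trans
  IsGeodesic coefL chris chrisB IsMetricOn covD)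

variable {n : ℕ}

/-- orthonormal families for a bilinear form -/
def Orth {ι : Type} [DecidableEq ι] (B : EV n →L[ℝ] EV n →L[ℝ] ℝ) (w : ι → EV n) : Prop :=
  ∀ i j, B (w i) (w j) = if i = j then 1 else 0

/-- Gram-Schmidt: the `j`-th vector before normalization is
`w j - ∑_{i < j} B (w j) (gs i) • gs i` -/
def gs (B : EV n →L[ℝ] EV n →L[ℝ] ℝ) (w : ℕ → EV n) (j : ℕ) : EV n :=
  let u : EV n := w j - ∑ i : Fin j, (B (w j) (gs B w i)) • gs B w i
  (Real.sqrt (B u u))⁻¹ • u
termination_by j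
decreasing_by exact i.2

/-- the vector before normalization -/
def gu (B : EV n →L[ℝ] EV n →L[ℝ] ℝ) (w : ℕ → EV n) (j : ℕ) : EV n :=
  w j - ∑ i : Fin j, (B (w j) (gs B w i)) • gs B w i

theorem gs_eq (B : EV n →L[ℝ] EV n →L[ℝ] ℝ) (w : ℕ → EV n) (j : ℕ) :
    gs B w j = (Real.sqrt (B (gu B w j) (gu B w j)))⁻¹ • gu B w j := by
  rw [gs]
  rfl

theorem gs_orth {B : EV n →L[ℝ] EV n →L[ℝ] ℝ} (hB : ∀ v w, B v w = B w v) {w : ℕ → EV n}
    {k : ℕ} (hpos : ∀ j < k, 0 < B (gu B w j) (gu B w j)) :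
    ∀ j < k, ∀ i ≤ j, B (gs B w i) (gs B w j) = if i = j then 1 else 0 := by
  intro j
  induction j using Nat.strong_induction_on with
  | _ j ih =>
    intro hj i hi
    have hlt : ∀ i < j, B (gs B w i) (gu B w j) = 0 := by
      intro i hij
      unfold gu
      simp only [map_sub, map_sum, map_smul, smul_eq_mul]
      have h1 : ∀ l : Fin j, B (gs B w i) (gs B w l) = if (l : ℕ) = i then 1 else 0 := by
        intro l
        rcases le_or_gt (l : ℕ) i with h | h
        · have h2 := ih i hij (hij.trans hj) l h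
          rw [hB]
          exact h2
        · have h2 := ih l l.2 (l.2.trans hj) i h.le
          rw [h2]
          simp only [eq_comm]
      simp only [h1, mul_ite, mul_one, mul_zero]
      have h2 : ∑ l : Fin j, (if (l : ℕ) = i then B (w j) (gs B w l) else 0) =
          B (w j) (gs B w i) := by
        rw [Finset.sum_eq_single (⟨i, hij⟩ : Fin j)]
        · simp
        · intro l _ hl
          rw [if_neg]
          intro h
          exact hl (Fin.ext h)
        · simp
      rw [h2, hB (gs B w i) (w j), sub_self]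
    rcases hi.lt_or_eq with hij | rfl
    · rw [gs_eq B w j, map_smul, hlt i hij, smul_zero, if_neg hij.ne]
    · rw [if_pos rfl, gs_eq]
      simp only [map_smul, smul_apply, smul_eq_mul]
      have h3 := hpos i hj
      set r := B (gu B w i) (gu B w i) with hr
      have h4 : Real.sqrt r * Real.sqrt r = r := Real.mul_self_sqrt h3.le
      have h5 : 0 < Real.sqrt r := Real.sqrt_pos.2 h3
      rw [← mul_assoc, ← mul_inv, h4, inv_mul_cancel₀ h3.ne']

/-- Gram-Schmidt does not change orthonormal families -/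
theorem gs_of_orth {B : EV n →L[ℝ] EV n →L[ℝ] ℝ} {w : ℕ → EV n} {k : ℕ}
    (h : ∀ i < k, ∀ j < k, B (w i) (w j) = if i = j then 1 else 0) :
    ∀ j < k, gs B w j = w j ∧ gu B w j = w j := by
  intro j
  induction j using Nat.strong_induction_on with
  | _ j ih =>
    intro hj
    have h1 : gu B w j = w j := by
      unfold gu
      rw [Finset.sum_eq_zero, sub_zero]
      intro i _
      rw [(ih i i.2 (i.2.trans hj)).1, h j hj i (i.2.trans hj), if_neg, zero_smul]
      exact i.2.ne'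
    refine ⟨?_, h1⟩
    rw [gs_eq, h1, h j hj j hj, if_pos rfl, Real.sqrt_one, inv_one, one_smul]

/-- extension of a family by zero -/
def extz (w : Fin n → EV n) (j : ℕ) : EV n := if h : j < n then w ⟨j, h⟩ else 0

/-- the Gram-Schmidt retraction in a chart -/
def gsSt (G : EV n → EV n →L[ℝ] EV n →L[ℝ] ℝ) (y : St (Fin n) n) : St (Fin n) n :=
  (y.1, fun j => gs (G y.1) (extz y.2) j)

/-- the set of states on which Gram-Schmidt is regular -/
def gsDom (G : EV n → EV n →L[ℝ] EV n →L[ℝ] ℝ) (U : Set (EV n)) : Set (St (Fin n) n) :=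
  {y | y.1 ∈ U ∧ ∀ j < n, 0 < G y.1 (gu (G y.1) (extz y.2) j) (gu (G y.1) (extz y.2) j)}

section

variable {G : EV n → EV n →L[ℝ] EV n →L[ℝ] ℝ} {U : Set (EV n)}

theorem contDiffAt_gs_gu (h : IsMetricOn G U) {y₀ : St (Fin n) n} (hy₀ : y₀.1 ∈ U) {k : ℕ}
    (hk : k ≤ n)
    (hpos : ∀ j < k, 0 < G y₀.1 (gu (G y₀.1) (extz y₀.2) j) (gu (G y₀.1) (extz y₀.2) j)) :
    ∀ j ≤ k, ContDiffAt ℝ ∞ (fun y : St (Fin n) n => gu (G y.1) (extz y.2) j) y₀ ∧
      (j < k → ContDiffAt ℝ ∞ (fun y : St (Fin n) n => gs (G y.1) (extz y.2) j) y₀) := by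
  have hG : ContDiffAt ℝ ∞ (fun y : St (Fin n) n => G y.1) y₀ :=
    ((h.smooth.contDiffAt (h.isOpen.mem_nhds hy₀))).comp y₀ contDiffAt_fst
  have hw : ∀ j, ContDiffAt ℝ ∞ (fun y : St (Fin n) n => extz y.2 j) y₀ := by
    intro j
    unfold extz
    by_cases hj : j < n
    · simp only [hj, dif_pos]
      exact ((ContinuousLinearMap.proj (R := ℝ) (φ := fun _ : Fin n => EV n)
        (⟨j, hj⟩ : Fin n)).contDiff.comp contDiff_snd).contDiffAt
    · simp only [hj, dif_neg, not_false_eq_true]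
      exact contDiffAt_const
  intro j
  induction j using Nat.strong_induction_on with
  | _ j ih =>
    intro hj
    have h1 : ContDiffAt ℝ ∞ (fun y : St (Fin n) n => gu (G y.1) (extz y.2) j) y₀ := by
      unfold gu
      refine (hw j).sub (ContDiffAt.sum fun i _ => ?_)
      have h2 := (ih i i.2 (i.2.le.trans hj)).2 (i.2.trans_le hj)
      exact ((hG.clm_apply (hw j)).clm_apply h2).smul h2
    refine ⟨h1, fun hjk => ?_⟩
    have h3 : (fun y : St (Fin n) n => gs (G y.1) (extz y.2) j) = fun y : St (Fin n) n =>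
        (Real.sqrt (G y.1 (gu (G y.1) (extz y.2) j) (gu (G y.1) (extz y.2) j)))⁻¹ •
          gu (G y.1) (extz y.2) j := by
      funext y
      exact gs_eq _ _ _
    rw [h3]
    have h4 : ContDiffAt ℝ ∞ (fun y : St (Fin n) n =>
        (G y.1 (gu (G y.1) (extz y.2) j) (gu (G y.1) (extz y.2) j) : ℝ)) y₀ :=
      (hG.clm_apply h1).clm_apply h1
    have h5 := hpos j hjk
    exact ((h4.sqrt h5.ne').inv (Real.sqrt_pos.2 h5).ne').smul h1

theorem isOpen_gsDom (h : IsMetricOn G U) : IsOpen (gsDom G U) := by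
  rw [isOpen_iff_mem_nhds]
  rintro y₀ ⟨h0, hpos⟩
  have h1 : ∀ᶠ y : St (Fin n) n in 𝓝 y₀, y.1 ∈ U :=
    continuousAt_fst.preimage_mem_nhds (h.isOpen.mem_nhds h0)
  have h2 : ∀ j < n, ∀ᶠ y : St (Fin n) n in 𝓝 y₀,
      0 < G y.1 (gu (G y.1) (extz y.2) j) (gu (G y.1) (extz y.2) j) := by
    intro j hj
    have hG : ContDiffAt ℝ ∞ (fun y : St (Fin n) n => G y.1) y₀ :=
      ((h.smooth.contDiffAt (h.isOpen.mem_nhds h0))).comp y₀ contDiffAt_fst
    have h3 := (contDiffAt_gs_gu h h0 le_rfl hpos j hj.le).1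
    exact ((hG.clm_apply h3).clm_apply h3).continuousAt.eventually (lt_mem_nhds (hpos j hj))
  have h3 : ∀ᶠ y : St (Fin n) n in 𝓝 y₀, ∀ j : Fin n,
      0 < G y.1 (gu (G y.1) (extz y.2) j) (gu (G y.1) (extz y.2) j) :=
    Filter.eventually_all.2 fun j => h2 j j.2
  filter_upwards [h1, h3] with y hy1 hy2
  exact ⟨hy1, fun j hj => hy2 ⟨j, hj⟩⟩

theorem contDiffAt_gsSt (h : IsMetricOn G U) {y₀ : St (Fin n) n} (hy : y₀ ∈ gsDom G U) :
    ContDiffAt ℝ ∞ (gsSt G) y₀ := by
  refine contDiffAt_fst.prodMk ?_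
  rw [contDiffAt_pi]
  intro j
  exact (contDiffAt_gs_gu h hy.1 le_rfl hy.2 j j.2.le).2 j.2

theorem contDiffOn_gsSt (h : IsMetricOn G U) : ContDiffOn ℝ ∞ (gsSt G) (gsDom G U) :=
  fun _ hy => (contDiffAt_gsSt h hy).contDiffWithinAt

theorem orth_gsSt (h : IsMetricOn G U) {y : St (Fin n) n} (hy : y ∈ gsDom G U) :
    Orth (G (gsSt G y).1) (gsSt G y).2 := by
  intro i j
  change G y.1 (gs (G y.1) (extz y.2) i) (gs (G y.1) (extz y.2) j) = _
  have h1 := gs_orth (h.symm y.1 hy.1) (w := extz y.2) (k := n) hy.2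
  rcases le_or_gt (i : ℕ) j with hij | hij
  · rw [h1 j j.2 i hij]
    simp only [Fin.ext_iff]
  · rw [h.symm y.1 hy.1, h1 i i.2 j hij.le]
    simp only [Fin.ext_iff, eq_comm]

theorem extz_orth {y : St (Fin n) n} (hy : Orth (G y.1) y.2) :
    ∀ i < n, ∀ j < n, G y.1 (extz y.2 i) (extz y.2 j) = if i = j then 1 else 0 := by
  intro i hi j hj
  unfold extz
  rw [dif_pos hi, dif_pos hj, hy]
  simp only [Fin.mk.injEq]

theorem gsSt_of_orth {y : St (Fin n) n} (hy : Orth (G y.1) y.2) : gsSt G y = y := by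
  refine Prod.ext rfl ?_
  funext j
  have h1 := (gs_of_orth (extz_orth hy) j j.2).1
  refine h1.trans ?_
  unfold extz
  rw [dif_pos j.2]

theorem mem_gsDom_of_orth {y : St (Fin n) n} (hU : y.1 ∈ U) (hy : Orth (G y.1) y.2) :
    y ∈ gsDom G U := by
  refine ⟨hU, fun j hj => ?_⟩
  rw [(gs_of_orth (extz_orth hy) j hj).2, extz_orth hy j hj j hj, if_pos rfl]
  exact one_pos

end

end Vale.Agent.P207.Q
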