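import Vale.Agent.P207.Q.H916.Fr4
import Vale.Agent.P207.Q.H743.Brk

/-!
# P207, n = 3, block A2: vertical one-parameter groups on the frame bundle
-/

open scoped Manifold ContDiff ENNReal Topology
open Bundle MeasureTheory Set Filter Topology

noncomputable section

set_option maxSynthPendingDepth 3
set_option linter.unusedSectionVars false

namespace Vale.Agent.P207.Q

open Vale.Agent.P255 (RMetric coefIn Gam Riem IsGeo Metric Npc ExpSys toMetric geo expg cc trans
  IsGeodesic coefL chris chrisB IsMetricOn covD)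

variable {n : ℕ}

/-- the rotation `exp (θ A)` for a skew matrix `A` with `A³ = -A` -/
def rotM (A : Matrix (Fin n) (Fin n) ℝ) (θ : ℝ) : Matrix (Fin n) (Fin n) ℝ :=
  1 + Real.sin θ • A + (1 - Real.cos θ) • (A * A)

/-- generators of plane rotations -/
structure IsGen (A : Matrix (Fin n) (Fin n) ℝ) : Prop where
  skew : A.transpose = -A
  cube : A * A * A = -A

theorem IsGen.transpose_mul {A : Matrix (Fin n) (Fin n) ℝ} (hA : IsGen A) (θ : ℝ) :
    (rotM A θ).transpose * rotM A θ = 1 := by
  have h1 : (rotM A θ).transpose = 1 - Real.sin θ • A + (1 - Real.cos θ) • (A * A) := by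
    simp only [rotM, Matrix.transpose_add, Matrix.transpose_one, Matrix.transpose_smul,
      Matrix.transpose_mul, hA.skew]
    simp only [smul_neg, neg_mul_neg]
    abel
  have h4 : A * A * (A * A) = -(A * A) := by
    rw [← mul_assoc, hA.cube, neg_mul]
  have h3 : A * (A * A) = -A := by rw [← mul_assoc, hA.cube]
  rw [h1, rotM]
  have h5 : Real.sin θ ^ 2 = 1 - Real.cos θ ^ 2 := by
    have := Real.sin_sq_add_cos_sq θ
    linarith
  have key : (1 - Real.sin θ • A + (1 - Real.cos θ) • (A * A)) *
      (1 + Real.sin θ • A + (1 - Real.cos θ) • (A * A)) =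
      1 + (2 * (1 - Real.cos θ) - Real.sin θ ^ 2) • (A * A) +
        ((1 - Real.cos θ) ^ 2) • (A * A * (A * A))
        + (Real.sin θ * (1 - Real.cos θ)) • (A * A * A)
        - (Real.sin θ * (1 - Real.cos θ)) • (A * (A * A)) := by
    simp only [add_mul, sub_mul, mul_add, one_mul, mul_one, smul_mul_assoc, mul_smul_comm,
      smul_smul]
    module
  rw [key, h4, h3, hA.cube, h5]
  module

theorem IsGen.rotM_mul {A : Matrix (Fin n) (Fin n) ℝ} (hA : IsGen A) (s t : ℝ) :
    rotM A s * rotM A t = rotM A (s + t) := by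
  have h4 : A * A * (A * A) = -(A * A) := by
    rw [← mul_assoc, hA.cube, neg_mul]
  have h3 : A * (A * A) = -A := by rw [← mul_assoc, hA.cube]
  have key : rotM A s * rotM A t = 1 + (Real.sin s + Real.sin t) • A +
      ((1 - Real.cos s) + (1 - Real.cos t) + Real.sin s * Real.sin t) • (A * A) +
      (Real.sin s * (1 - Real.cos t)) • (A * (A * A)) +
      ((1 - Real.cos s) * Real.sin t) • (A * A * A) +
      ((1 - Real.cos s) * (1 - Real.cos t)) • (A * A * (A * A)) := by
    simp only [rotM, add_mul, mul_add, one_mul, mul_one, smul_mul_assoc, mul_smul_comm,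
      smul_smul]
    module
  rw [key, h3, h4, hA.cube, rotM, Real.sin_add, Real.cos_add]
  module

theorem rotM_zero (A : Matrix (Fin n) (Fin n) ℝ) : rotM A 0 = 1 := by
  simp [rotM]

theorem IsGen.hasDerivAt {A : Matrix (Fin n) (Fin n) ℝ} (hA : IsGen A) (i j : Fin n) (θ : ℝ) :
    HasDerivAt (fun θ => rotM A θ i j) ((rotM A θ * A) i j) θ := by
  have h1 : rotM A θ * A = Real.cos θ • A + Real.sin θ • (A * A) := by
    simp only [rotM, add_mul, one_mul, smul_mul_assoc, hA.cube]
    module
  rw [h1]
  have h2 : (fun θ => rotM A θ i j) = fun θ =>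
      (1 : Matrix (Fin n) (Fin n) ℝ) i j + Real.sin θ * A i j + (1 - Real.cos θ) * (A * A) i j := by
    funext θ
    simp [rotM]
  rw [h2]
  have h3 := (((Real.hasDerivAt_sin θ).mul_const (A i j)).const_add
    ((1 : Matrix (Fin n) (Fin n) ℝ) i j)).add
      (((Real.hasDerivAt_cos θ).const_sub 1).mul_const ((A * A) i j))
  refine h3.congr_deriv ?_
  simp

theorem isGen_rot {i j : Fin n} (hij : i ≠ j) : IsGen (Brk.rot (ι := Fin n) i j) := by
  have h2 : Brk.rot (ι := Fin n) i j * Brk.rot i j =
      -(Matrix.single i i 1 + Matrix.single j j 1) := by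
    simp only [Brk.rot, sub_mul, mul_sub, Matrix.single_mul_single_same, mul_one,
      Matrix.single_mul_single_of_ne, ne_eq, hij, hij.symm, not_false_eq_true]
    abel
  refine ⟨?_, ?_⟩
  · simp only [Brk.rot, Matrix.transpose_sub, Matrix.transpose_single]
    abel
  · rw [h2]
    simp only [Brk.rot, neg_mul, add_mul, mul_sub, Matrix.single_mul_single_same, mul_one,
      Matrix.single_mul_single_of_ne, ne_eq, hij, hij.symm, not_false_eq_true]
    abel

/-- the rotation as an element of the orthogonal group -/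
def IsGen.on {A : Matrix (Fin n) (Fin n) ℝ} (hA : IsGen A) (θ : ℝ) : Fr.On n :=
  ⟨rotM A θ, (Matrix.mem_orthogonalGroup_iff' (Fin n) ℝ).2 (hA.transpose_mul θ)⟩

theorem IsGen.on_zero {A : Matrix (Fin n) (Fin n) ℝ} (hA : IsGen A) : hA.on 0 = 1 :=
  Subtype.ext (rotM_zero A)

theorem IsGen.on_add {A : Matrix (Fin n) (Fin n) ℝ} (hA : IsGen A) (s t : ℝ) :
    hA.on s * hA.on t = hA.on (s + t) :=
  Subtype.ext (hA.rotM_mul s t)

theorem IsGen.continuous_on {A : Matrix (Fin n) (Fin n) ℝ} (hA : IsGen A) :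
    Continuous fun θ => hA.on θ := by
  refine Continuous.subtype_mk ?_ _
  refine continuous_matrix fun i j => ?_
  exact continuous_iff_continuousAt.2 fun θ => (hA.hasDerivAt i j θ).continuousAt

variable {M : Type} [TopologicalSpace M] [ChartedSpace (EV n) M] [IsManifold 𝓘(ℝ, EV n) ∞ M]
variable {g : RMetric (EV n) M}

/-- the flow of the vertical field of `A` on the frame bundle -/
def verFlow {A : Matrix (Fin n) (Fin n) ℝ} (hA : IsGen A) (θ : ℝ) (f : Fr g) : Fr g :=
  Fr.rot (hA.on θ) f

section Ver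

variable {A : Matrix (Fin n) (Fin n) ℝ} (hA : IsGen A)

theorem verFlow_zero (f : Fr g) : verFlow hA 0 f = f := by
  unfold verFlow
  rw [hA.on_zero, Fr.rot_one]

theorem verFlow_add (s t : ℝ) (f : Fr g) :
    verFlow hA (s + t) f = verFlow hA s (verFlow hA t f) := by
  unfold verFlow
  rw [Fr.rot_rot, hA.on_add, add_comm]

theorem continuous_verFlow [NeZero n] : Continuous fun q : ℝ × Fr g => verFlow hA q.1 q.2 :=
  Fr.continuous_rot.comp ((hA.continuous_on.comp continuous_fst).prodMk continuous_snd)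

theorem hasDerivAt_verFlow (f : Fr g) (a : M) (t : ℝ) :
    HasDerivAt (fun r => chF a (verFlow hA r f).1) (Brk.ver A (chF a (verFlow hA t f).1)) t := by
  have h1 : ∀ r, chF a (verFlow hA r f).1 = stR (rotM A r) (chF a f.1) := fun r =>
    chF_mulR a (rotM A r) f.1
  simp only [h1]
  refine HasDerivAt.prodMk (hasDerivAt_const t _) ?_
  rw [hasDerivAt_pi]
  intro j
  have h2 : HasDerivAt (fun r => ∑ i, rotM A r i j • (chF a f.1).2 i)
      (∑ i, (rotM A t * A) i j • (chF a f.1).2 i) t :=
    HasDerivAt.fun_sum fun i _ => (hA.hasDerivAt i j t).smul_const _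
  refine h2.congr_deriv ?_
  change _ = ∑ b, A b j • ∑ i, rotM A t i b • (chF a f.1).2 i
  simp only [Matrix.mul_apply, Finset.sum_smul, Finset.smul_sum, smul_smul]
  rw [Finset.sum_comm]
  refine Finset.sum_congr rfl fun i _ => Finset.sum_congr rfl fun k _ => ?_
  rw [mul_comm]

/-- the horizontal field of 743 is `hF` -/
theorem hF_single {ι : Type} [Fintype ι] [DecidableEq ι]
    (G : EV n → EV n →L[ℝ] EV n →L[ℝ] ℝ) (i : ι) :
    hF G (Pi.single i 1) = Brk.hor G i := by
  funext y
  simp only [hF, Brk.hor, Pi.single_apply, ite_smul, one_smul, zero_smul, Finset.sum_ite_eq',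
    Finset.mem_univ, if_true, P255.chrisB_apply]

end Ver

end Vale.Agent.P207.Q
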