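import Vale.Agent.P207.Q.H916.Fr5
import Vale.Agent.P207.Q.H916.Fr6

/-!
# P207, n = 3: smooth functions on the frame bundle, derivations along flows, brackets
-/

open scoped Manifold ContDiff ENNReal Topology
open Bundle MeasureTheory Set Filter Topology VectorField

noncomputable section

set_option maxSynthPendingDepth 3
set_option linter.unusedSectionVars false

namespace Vale.Agent.P207.Q

open Vale.Agent.P255 (RMetric coefIn Gam Riem IsGeo Metric Npc ExpSys toMetric geo expg cc trans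
  IsGeodesic coefL chris chrisB IsMetricOn covD)

variable {n : ℕ}
variable {M : Type} [TopologicalSpace M] [ChartedSpace (EV n) M] [IsManifold 𝓘(ℝ, EV n) ∞ M]
variable {g : RMetric (EV n) M}

/-- the domain of the Gram-Schmidt retraction in the chart at `a` -/
abbrev dom (g : RMetric (EV n) M) (a : M) : Set (St (Fin n) n) :=
  gsDom ((mt g).coef a) (chartAt (EV n) a).target

/-- the orthonormal frame with state `gsSt y` -/
def frOf (g : RMetric (EV n) M) (a : M) (y : St (Fin n) n) (hy : y ∈ dom g a) : Fr g :=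
  ⟨chFs a (gsSt ((mt g).coef a) y), fun i j => by
    have h1 : (gsSt ((mt g).coef a) y).1 ∈ (chartAt (EV n) a).target := hy.1
    exact (inner_chFs g a h1 i j).trans (orth_gsSt ((mt g).isMetricOn a) hy i j)⟩

theorem chF_frOf (a : M) {y : St (Fin n) n} (hy : y ∈ dom g a) :
    chF a (frOf g a y hy).1 = gsSt ((mt g).coef a) y :=
  chF_chFs a (y := gsSt ((mt g).coef a) y) hy.1

theorem frOf_pt (a : M) {y : St (Fin n) n} (hy : y ∈ dom g a) :
    (frOf g a y hy).pt ∈ (chartAt (EV n) a).source := (chartAt (EV n) a).map_target hy.1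

theorem orth_chF {p : Fr g} {a : M} (hp : p.pt ∈ (chartAt (EV n) a).source) :
    Orth ((mt g).coef a (chF a p.1).1) (chF a p.1).2 := fun i j =>
  (inner_chF g a (f := p.1) hp i j).trans (p.2 i j)

theorem chF_mem_dom {p : Fr g} {a : M} (hp : p.pt ∈ (chartAt (EV n) a).source) :
    chF a p.1 ∈ dom g a :=
  mem_gsDom_of_orth ((chartAt (EV n) a).map_source hp) (orth_chF hp)

theorem frOf_chF {p : Fr g} {a : M} (hp : p.pt ∈ (chartAt (EV n) a).source) :
    frOf g a (chF a p.1) (chF_mem_dom hp) = p := by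
  apply Subtype.ext
  change chFs a (gsSt ((mt g).coef a) (chF a p.1)) = p.1
  rw [gsSt_of_orth (orth_chF hp)]
  exact chFs_chF a hp

theorem gsSt_mem_dom (a : M) {y : St (Fin n) n} (hy : y ∈ dom g a) :
    gsSt ((mt g).coef a) y ∈ dom g a :=
  mem_gsDom_of_orth (G := (mt g).coef a) (y := gsSt ((mt g).coef a) y) hy.1
    (orth_gsSt ((mt g).isMetricOn a) hy)

theorem isOpen_dom (a : M) : IsOpen (dom g a) := isOpen_gsDom ((mt g).isMetricOn a)

section Rd

variable {V : Type} [NormedAddCommGroup V] [NormedSpace ℝ V]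

open Classical in
/-- a function on the frame bundle, read in the chart at `a` (composed with Gram-Schmidt) -/
def rd (f : Fr g → V) (a : M) (y : St (Fin n) n) : V :=
  if h : y ∈ dom g a then f (frOf g a y h) else 0

theorem rd_of_mem (f : Fr g → V) {a : M} {y : St (Fin n) n} (h : y ∈ dom g a) :
    rd f a y = f (frOf g a y h) := dif_pos h

theorem rd_chF (f : Fr g → V) {p : Fr g} {a : M} (hp : p.pt ∈ (chartAt (EV n) a).source) :
    rd f a (chF a p.1) = f p := by
  rw [rd_of_mem f (chF_mem_dom hp), frOf_chF hp]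

/-- smooth functions on the frame bundle -/
def SmF (f : Fr g → V) : Prop := ∀ a : M, ContDiffOn ℝ ∞ (rd f a) (dom g a)

theorem SmF.contDiffAt {f : Fr g → V} (hf : SmF f) {a : M} {y : St (Fin n) n}
    (hy : y ∈ dom g a) : ContDiffAt ℝ ∞ (rd f a) y :=
  (hf a).contDiffAt ((isOpen_dom a).mem_nhds hy)

theorem SmF.congr_rd {f : Fr g → V} {F : M → St (Fin n) n → V}
    (h : ∀ a, ∀ y ∈ dom g a, rd f a y = F a y) (hF : ∀ a, ContDiffOn ℝ ∞ (F a) (dom g a)) :
    SmF f := fun a => (hF a).congr (h a)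

theorem continuous_of_rd [NeZero n] {f : Fr g → V} (hf : ∀ a, ContinuousOn (rd f a) (dom g a)) :
    Continuous f := by
  rw [continuous_iff_continuousAt]
  intro p
  have hp : p.pt ∈ (chartAt (EV n) p.pt).source := mem_chart_source _ _
  set a := p.pt with ha
  have h1 : ContinuousAt (fun q : Fr g => chF a q.1) p :=
    ContinuousAt.comp (g := chF a) (continuousAt_chF a (f := p.1) hp)
      Fr.continuous_val.continuousAt
  have h2 : ContinuousAt (rd f a) (chF a p.1) :=
    (hf a).continuousAt ((isOpen_dom a).mem_nhds (chF_mem_dom hp))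
  have h3 : ContinuousAt (fun q : Fr g => rd f a (chF a q.1)) p :=
    ContinuousAt.comp (g := rd f a) h2 h1
  refine h3.congr ?_
  filter_upwards [Fr.continuous_pt.continuousAt.preimage_mem_nhds
    ((chartAt (EV n) a).open_source.mem_nhds hp)] with q hq
  exact rd_chF f hq

theorem SmF.continuous [NeZero n] {f : Fr g → V} (hf : SmF f) : Continuous f :=
  continuous_of_rd fun a => (hf a).continuousOn

theorem SmF.const (v : V) : SmF (fun _ : Fr g => v) :=
  SmF.congr_rd (F := fun _ _ => v) (fun _ _ hy => rd_of_mem _ hy) fun _ => contDiffOn_const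

theorem SmF.add {f f' : Fr g → V} (hf : SmF f) (hf' : SmF f') : SmF (fun p => f p + f' p) :=
  SmF.congr_rd (F := fun a y => rd f a y + rd f' a y)
    (fun a y hy => by rw [rd_of_mem _ hy, rd_of_mem _ hy, rd_of_mem _ hy])
    fun a => (hf a).add (hf' a)

theorem SmF.clm {W : Type} [NormedAddCommGroup W] [NormedSpace ℝ W] {f : Fr g → V} (hf : SmF f)
    (L : V →L[ℝ] W) : SmF (fun p => L (f p)) :=
  SmF.congr_rd (F := fun a y => L (rd f a y))
    (fun a y hy => by rw [rd_of_mem _ hy, rd_of_mem _ hy]) fun a => L.contDiff.comp_contDiffOn (hf a)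

theorem SmF.comp {W : Type} [NormedAddCommGroup W] [NormedSpace ℝ W] {f : Fr g → V} (hf : SmF f)
    {F : V → W} (hF : ContDiff ℝ ∞ F) : SmF (fun p => F (f p)) :=
  SmF.congr_rd (F := fun a y => F (rd f a y))
    (fun a y hy => by rw [rd_of_mem _ hy, rd_of_mem _ hy]) fun a => hF.comp_contDiffOn (hf a)

theorem SmF.mul {f f' : Fr g → ℝ} (hf : SmF f) (hf' : SmF f') : SmF (fun p => f p * f' p) :=
  SmF.congr_rd (F := fun a y => rd f a y * rd f' a y)
    (fun a y hy => by rw [rd_of_mem _ hy, rd_of_mem _ hy, rd_of_mem _ hy])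
    fun a => (hf a).mul (hf' a)

end Rd

/-! ### fields with a flow -/

/-- a smooth field on families of vectors, given in all charts -/
structure ChField (g : RMetric (EV n) M) where
  /-- the field in the chart at `a` -/
  Z : M → St (Fin n) n → St (Fin n) n
  smooth : ∀ a y, y.1 ∈ (chartAt (EV n) a).target → ContDiffAt ℝ ∞ (Z a) y

/-- `Ψ` is the flow of `Z` on the frame bundle -/
structure IsFlow (Z : ChField g) (Ψ : ℝ → Fr g → Fr g) : Prop where
  zero : ∀ p, Ψ 0 p = p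
  cont : ∀ p, Continuous fun t => Ψ t p
  eqn : ∀ a p t, (Ψ t p).pt ∈ (chartAt (EV n) a).source →
    HasDerivAt (fun r => chF a (Ψ r p).1) (Z.Z a (chF a (Ψ t p).1)) t

/-- the derivative of a function along the field `Z` -/
def dZ {V : Type} [NormedAddCommGroup V] [NormedSpace ℝ V] (Z : ChField g) (f : Fr g → V)
    (p : Fr g) : V :=
  fderiv ℝ (rd f p.pt) (chF p.pt p.1) (Z.Z p.pt (chF p.pt p.1))

section Flow

variable {V : Type} [NormedAddCommGroup V] [NormedSpace ℝ V]
variable [NeZero n] {Z Z' : ChField g} {Ψ Ψ' : ℝ → Fr g → Fr g} {f : Fr g → V}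

theorem IsFlow.eventually_source (h : IsFlow Z Ψ) {a : M} {p : Fr g} {t : ℝ}
    (ha : (Ψ t p).pt ∈ (chartAt (EV n) a).source) :
    ∀ᶠ r in 𝓝 t, (Ψ r p).pt ∈ (chartAt (EV n) a).source :=
  (Fr.continuous_pt.comp (h.cont p)).continuousAt.preimage_mem_nhds
    ((chartAt (EV n) a).open_source.mem_nhds ha)

theorem IsFlow.hasDerivAt' (h : IsFlow Z Ψ) (hf : SmF f) {a : M} {p : Fr g} {t : ℝ}
    (ha : (Ψ t p).pt ∈ (chartAt (EV n) a).source) :
    HasDerivAt (fun r => f (Ψ r p))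
      (fderiv ℝ (rd f a) (chF a (Ψ t p).1) (Z.Z a (chF a (Ψ t p).1))) t := by
  have h1 : DifferentiableAt ℝ (rd f a) (chF a (Ψ t p).1) :=
    (hf.contDiffAt (chF_mem_dom ha)).differentiableAt (by simp)
  have h2 := h1.hasFDerivAt.comp_hasDerivAt t (h.eqn a p t ha)
  refine h2.congr_of_eventuallyEq ?_
  filter_upwards [h.eventually_source ha] with r hr
  exact (rd_chF f hr).symm

theorem IsFlow.dZ_eq (h : IsFlow Z Ψ) (hf : SmF f) {a : M} {p : Fr g}
    (ha : p.pt ∈ (chartAt (EV n) a).source) :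
    dZ Z f p = fderiv ℝ (rd f a) (chF a p.1) (Z.Z a (chF a p.1)) := by
  have h0 : Ψ 0 p = p := h.zero p
  have h1 := h.hasDerivAt' hf (a := a) (p := p) (t := 0) (by rw [h0]; exact ha)
  have h2 := h.hasDerivAt' hf (a := p.pt) (p := p) (t := 0)
    (by rw [h0]; exact mem_chart_source _ _)
  rw [h0] at h1 h2
  exact h2.unique h1

/-- derivative along the flow -/
theorem IsFlow.hasDerivAt (h : IsFlow Z Ψ) (hf : SmF f) (p : Fr g) (t : ℝ) :
    HasDerivAt (fun r => f (Ψ r p)) (dZ Z f (Ψ t p)) t :=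
  h.hasDerivAt' hf (mem_chart_source _ _)

theorem IsFlow.rd_dZ (h : IsFlow Z Ψ) (hf : SmF f) {a : M} {y : St (Fin n) n}
    (hy : y ∈ dom g a) : rd (dZ Z f) a y =
      fderiv ℝ (rd f a) (gsSt ((mt g).coef a) y) (Z.Z a (gsSt ((mt g).coef a) y)) := by
  rw [rd_of_mem _ hy, h.dZ_eq hf (frOf_pt a hy), chF_frOf a hy]

theorem IsFlow.smF_dZ (h : IsFlow Z Ψ) (hf : SmF f) : SmF (dZ Z f) := by
  refine SmF.congr_rd (F := fun a y =>
    fderiv ℝ (rd f a) (gsSt ((mt g).coef a) y) (Z.Z a (gsSt ((mt g).coef a) y)))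
    (fun a y hy => h.rd_dZ hf hy) fun a y hy => ?_
  have hy' := gsSt_mem_dom a hy
  have h1 : ContDiffAt ℝ ∞ (gsSt ((mt g).coef a)) y := contDiffAt_gsSt ((mt g).isMetricOn a) hy
  have h2 : ContDiffAt ℝ ∞ (fderiv ℝ (rd f a)) (gsSt ((mt g).coef a) y) :=
    (hf.contDiffAt hy').fderiv_right (m := ∞) (by simp)
  have h3 : ContDiffAt ℝ ∞ (Z.Z a) (gsSt ((mt g).coef a) y) := Z.smooth a _ hy'.1
  exact ((h2.comp y h1).clm_apply (h3.comp y h1)).contDiffWithinAt

theorem IsFlow.differentiableAt_field (Z : ChField g) {a : M} {p : Fr g}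
    (ha : p.pt ∈ (chartAt (EV n) a).source) : DifferentiableAt ℝ (Z.Z a) (chF a p.1) :=
  (Z.smooth a _ ((chartAt (EV n) a).map_source ha)).differentiableAt (by simp)

/-- second derivatives along two flows -/
theorem IsFlow.dZ_dZ (h : IsFlow Z Ψ) (h' : IsFlow Z' Ψ') (hf : SmF f) {a : M} {p : Fr g}
    (ha : p.pt ∈ (chartAt (EV n) a).source) :
    dZ Z (dZ Z' f) p =
      fderiv ℝ (fun q => fderiv ℝ (rd f a) q (Z'.Z a q)) (chF a p.1) (Z.Z a (chF a p.1)) := by
  have h0 : Ψ 0 p = p := h.zero p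
  have ha0 : (Ψ 0 p).pt ∈ (chartAt (EV n) a).source := by rw [h0]; exact ha
  have hf' : SmF (dZ Z' f) := h'.smF_dZ hf
  have h1 := h.hasDerivAt hf' p 0
  rw [h0] at h1
  have hd : DifferentiableAt ℝ (fun q => fderiv ℝ (rd f a) q (Z'.Z a q)) (chF a p.1) := by
    have h2 : ContDiffAt ℝ ∞ (fderiv ℝ (rd f a)) (chF a p.1) :=
      (hf.contDiffAt (chF_mem_dom ha)).fderiv_right (m := ∞) (by simp)
    have h3 : ContDiffAt ℝ ∞ (Z'.Z a) (chF a p.1) := Z'.smooth a _ ((chartAt (EV n) a).map_source ha)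
    exact (h2.clm_apply h3).differentiableAt (by simp)
  have hd0 : HasFDerivAt (fun q => fderiv ℝ (rd f a) q (Z'.Z a q))
      (fderiv ℝ (fun q => fderiv ℝ (rd f a) q (Z'.Z a q)) (chF a p.1)) (chF a (Ψ 0 p).1) := by
    rw [h0]; exact hd.hasFDerivAt
  have h4 := hd0.comp_hasDerivAt 0 (h.eqn a p 0 ha0)
  rw [h0] at h4
  have h5 : (fun r => dZ Z' f (Ψ r p)) =ᶠ[𝓝 0]
      ((fun q => fderiv ℝ (rd f a) q (Z'.Z a q)) ∘ fun r => chF a (Ψ r p).1) := by
    filter_upwards [h.eventually_source ha0] with r hr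
    exact h'.dZ_eq hf hr
  exact h1.unique (h4.congr_of_eventuallyEq h5)

/-- the bracket of two fields -/
theorem IsFlow.bracket (h : IsFlow Z Ψ) (h' : IsFlow Z' Ψ') (hf : SmF f) {a : M} {p : Fr g}
    (ha : p.pt ∈ (chartAt (EV n) a).source) :
    dZ Z (dZ Z' f) p - dZ Z' (dZ Z f) p =
      fderiv ℝ (rd f a) (chF a p.1) (lieBracket ℝ (Z.Z a) (Z'.Z a) (chF a p.1)) := by
  rw [h.dZ_dZ h' hf ha, h'.dZ_dZ h hf ha]
  exact Brk.fderiv_fderiv_sub
    ((hf.contDiffAt (chF_mem_dom ha)).of_le P255.two_le_infty)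
    (IsFlow.differentiableAt_field Z ha) (IsFlow.differentiableAt_field Z' ha)

end Flow

/-! ### the horizontal and the vertical fields -/

/-- the horizontal field of direction `∑ ξᵢ eᵢ` -/
def horZ (g : RMetric (EV n) M) (ξ : Fin n → ℝ) : ChField g where
  Z a := hF ((mt g).coef a) ξ
  smooth a _ hy := contDiffAt_hF ((mt g).isMetricOn a) ξ hy

/-- the vertical field of the matrix `A` -/
def verZ (g : RMetric (EV n) M) (A : Matrix (Fin n) (Fin n) ℝ) : ChField g where
  Z _ := Brk.ver A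
  smooth _ y _ := by
    have h1 : Brk.ver (E := EV n) A = Brk.verL A := by
      funext y; exact (Brk.verL_apply A y).symm
    rw [h1]
    exact (Brk.verL (E := EV n) A).contDiff.contDiffAt

theorem verZ_Z (A : Matrix (Fin n) (Fin n) ℝ) (a : M) : (verZ g A).Z a = Brk.ver A := rfl

theorem horZ_Z (ξ : Fin n → ℝ) (a : M) : (horZ g ξ).Z a = hF ((mt g).coef a) ξ := rfl

theorem IsHorFlow.isFlow [NeZero n] {ξ : Fin n → ℝ} {Φ : ℝ → Fr g → Fr g}
    (h : IsHorFlow g ξ Φ) : IsFlow (horZ g ξ) Φ where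
  zero := fun p => (h p).1
  cont := fun p => by
    refine Continuous.subtype_mk (f := fun t => (Φ t p).1) ?_ _
    rw [continuous_iff_continuousAt]
    exact fun t => (h p).2.cont t (mem_univ t)
  eqn := fun a p t ha => (h p).2.eqn a t (mem_univ t) ha

theorem isFlow_ver [NeZero n] {A : Matrix (Fin n) (Fin n) ℝ} (hA : IsGen A) :
    IsFlow (verZ g A) (verFlow hA) := by
  refine ⟨verFlow_zero hA, fun p => ?_, fun a p t _ => ?_⟩
  · have h1 : Continuous fun q : ℝ × Fr g => verFlow hA q.1 q.2 := continuous_verFlow hA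
    have h2 : Continuous fun t : ℝ => ((t, p) : ℝ × Fr g) := Continuous.prodMk_left p
    have h3 := h1.comp h2
    exact h3
  · rw [verZ_Z]
    exact hasDerivAt_verFlow hA p a t

section Brackets

variable [NeZero n] {V : Type} [NormedAddCommGroup V] [NormedSpace ℝ V] {f : Fr g → V}
variable {Φ Φ' : ℝ → Fr g → Fr g}

theorem fderiv_hor_eq {i : Fin n} (h : IsHorFlow g (Pi.single i 1) Φ) (hf : SmF f) {a : M}
    {p : Fr g} (ha : p.pt ∈ (chartAt (EV n) a).source) :
    fderiv ℝ (rd f a) (chF a p.1) (Brk.hor ((mt g).coef a) i (chF a p.1)) =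
      dZ (horZ g (Pi.single i 1)) f p := by
  rw [h.isFlow.dZ_eq hf ha]
  change _ = fderiv ℝ (rd f a) (chF a p.1) (hF ((mt g).coef a) (Pi.single i 1) (chF a p.1))
  rw [hF_single]

/-- the vertical derivative is linear in the matrix -/
theorem fderiv_ver_eq {A : Matrix (Fin n) (Fin n) ℝ} (hA : IsGen A) (hf : SmF f) {a : M}
    {p : Fr g} (ha : p.pt ∈ (chartAt (EV n) a).source) :
    fderiv ℝ (rd f a) (chF a p.1) (Brk.ver A (chF a p.1)) = dZ (verZ g A) f p :=
  ((isFlow_ver hA).dZ_eq hf ha).symm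

/-- `[V_A, H_b] = ∑_d A_db H_d` -/
theorem bracket_ver_hor {A : Matrix (Fin n) (Fin n) ℝ} (hA : IsGen A)
    {Ψ : Fin n → ℝ → Fr g → Fr g} (hΨ : ∀ i, IsHorFlow g (Pi.single i 1) (Ψ i))
    (hf : SmF f) (b : Fin n) (p : Fr g) :
    dZ (verZ g A) (dZ (horZ g (Pi.single b 1)) f) p -
      dZ (horZ g (Pi.single b 1)) (dZ (verZ g A) f) p =
      ∑ d, A d b • dZ (horZ g (Pi.single d 1)) f p := by
  have ha : p.pt ∈ (chartAt (EV n) p.pt).source := mem_chart_source _ _
  rw [(isFlow_ver hA).bracket (hΨ b).isFlow hf ha]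
  change fderiv ℝ (rd f p.pt) (chF p.pt p.1)
    (lieBracket ℝ (Brk.ver A) (hF ((mt g).coef p.pt) (Pi.single b 1)) (chF p.pt p.1)) = _
  rw [hF_single, Brk.lieBracket_ver_hor ((mt g).isMetricOn p.pt)
    ((chartAt (EV n) p.pt).map_source ha), map_sum]
  refine Finset.sum_congr rfl fun d _ => ?_
  rw [map_smul, fderiv_hor_eq (hΨ d) hf ha]

/-- `[V_A, V_B] = V_{AB-BA}` -/
theorem bracket_ver_ver {A B C : Matrix (Fin n) (Fin n) ℝ} (hA : IsGen A) (hB : IsGen B)
    (hC : IsGen C) (hABC : A * B - B * A = C) (hf : SmF f) (p : Fr g) :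
    dZ (verZ g A) (dZ (verZ g B) f) p - dZ (verZ g B) (dZ (verZ g A) f) p =
      dZ (verZ g C) f p := by
  have ha : p.pt ∈ (chartAt (EV n) p.pt).source := mem_chart_source _ _
  rw [(isFlow_ver hA).bracket (isFlow_ver hB) hf ha]
  change fderiv ℝ (rd f p.pt) (chF p.pt p.1)
    (lieBracket ℝ (Brk.ver A) (Brk.ver B) (chF p.pt p.1)) = _
  rw [Brk.lieBracket_ver_ver, hABC, fderiv_ver_eq hC hf ha]

end Brackets

end Vale.Agent.P207.Q
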