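import Vale.Agent.P207.Q.H916.Fr1

/-!
# P207, n = 3, block A1: right action of the orthogonal group on the frame bundle
-/

open scoped Manifold ContDiff ENNReal Topology
open Bundle MeasureTheory Set Filter Topology

noncomputable section

set_option maxSynthPendingDepth 3
set_option linter.unusedSectionVars false

namespace Vale.Agent.P207.Q

open Vale.Agent.P255 (RMetric coefIn Gam Riem IsGeo Metric Npc ExpSys toMetric geo expg cc trans
  IsGeodesic coefL chris chrisB)

variable {ι κ : Type} [Fintype ι] {n : ℕ} {M : Type} [TopologicalSpace M] [ChartedSpace (EV n) M]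
  [IsManifold 𝓘(ℝ, EV n) ∞ M]

/-- right action of matrices: `(e·A)_j = ∑ᵢ A_ij e_i` -/
def LF.mulR (A : Matrix ι κ ℝ) (f : LF ι n M) : LF κ n M :=
  ⟨f.pt, fun j => ∑ i, A i j • f.e i⟩

/-- right action of matrices on states -/
def stR (A : Matrix ι κ ℝ) (y : EV n × (ι → EV n)) : EV n × (κ → EV n) :=
  (y.1, fun j => ∑ i, A i j • y.2 i)

theorem chF_mulR (a : M) (A : Matrix ι κ ℝ) (f : LF ι n M) :
    chF a (f.mulR A) = stR A (chF a f) := by
  refine Prod.ext rfl ?_
  funext j
  simp only [chF, stR, LF.mulR, map_sum, map_smul]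

theorem chFs_stR (a : M) (A : Matrix ι κ ℝ) (y : EV n × (ι → EV n)) :
    chFs a (stR A y) = (chFs (M := M) a y).mulR A := by
  refine LF.ext rfl ?_
  funext j
  simp only [chFs, stR, LF.mulR, map_sum, map_smul]

theorem contDiff_stR {k : ℕ∞ω} [Fintype κ] :
    ContDiff ℝ k (fun q : (ι → κ → ℝ) × (EV n × (ι → EV n)) =>
      (stR (show Matrix ι κ ℝ from q.1) q.2 : EV n × (κ → EV n))) := by
  refine ContDiff.prodMk (contDiff_fst.comp contDiff_snd) ?_
  rw [contDiff_pi]
  intro j
  change ContDiff ℝ k (fun q : (ι → κ → ℝ) × (EV n × (ι → EV n)) => ∑ i, q.1 i j • q.2.2 i)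
  refine ContDiff.sum fun i _ => ?_
  have h1 : ContDiff ℝ k (fun q : (ι → κ → ℝ) × (EV n × (ι → EV n)) => q.1 i j) :=
    ((ContinuousLinearMap.proj (R := ℝ) (φ := fun _ : κ => ℝ) j).comp
      (ContinuousLinearMap.proj (R := ℝ) (φ := fun _ : ι => κ → ℝ) i)).contDiff.comp contDiff_fst
  have h2 : ContDiff ℝ k (fun q : (ι → κ → ℝ) × (EV n × (ι → EV n)) => q.2.2 i) :=
    ((ContinuousLinearMap.proj (R := ℝ) (φ := fun _ : ι => EV n) i)).contDiff.comp
      (contDiff_snd.comp contDiff_snd)
  exact h1.smul h2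

theorem continuous_mulR [Nonempty ι] [Fintype κ] :
    Continuous (fun q : Matrix ι κ ℝ × LF ι n M => q.2.mulR q.1) := by
  rw [continuous_iff_continuousAt]
  rintro ⟨A, f⟩
  have hf : f.pt ∈ (chartAt (EV n) f.pt).source := mem_chart_source _ _
  set a := f.pt with ha
  have h1 : ContinuousAt (fun q : Matrix ι κ ℝ × LF ι n M => (q.1, chF a q.2)) (A, f) :=
    continuousAt_fst.prodMk (ContinuousAt.comp (g := chF a) (continuousAt_chF a hf)
      continuousAt_snd)
  have h2 : ContinuousAt (fun q : Matrix ι κ ℝ × LF ι n M => stR q.1 (chF a q.2)) (A, f) :=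
    ContinuousAt.comp (g := fun q : Matrix ι κ ℝ × (EV n × (ι → EV n)) => stR q.1 q.2)
      (contDiff_stR (ι := ι) (κ := κ) (n := n) (k := 0)).continuous.continuousAt h1
  have h3 : ContinuousAt (fun q : Matrix ι κ ℝ × LF ι n M => chFs a (stR q.1 (chF a q.2))) (A, f) :=
    ContinuousAt.comp (g := chFs a) (f := fun q : Matrix ι κ ℝ × LF ι n M => stR q.1 (chF a q.2))
      (continuousAt_chFs a ((chartAt (EV n) a).map_source hf)) h2
  refine h3.congr ?_
  filter_upwards [(continuous_LF_pt.comp continuous_snd).continuousAt.preimage_mem_nhds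
    ((chartAt (EV n) a).open_source.mem_nhds hf)] with q hq
  rw [chFs_stR, chFs_chF a hq]

theorem mulR_one [DecidableEq ι] (f : LF ι n M) : f.mulR (1 : Matrix ι ι ℝ) = f := by
  refine LF.ext rfl ?_
  funext j
  simp [LF.mulR, Matrix.one_apply, Finset.sum_ite_eq']

theorem mulR_mulR {μ : Type} [Fintype κ] (f : LF ι n M) (A : Matrix ι κ ℝ) (B : Matrix κ μ ℝ) :
    (f.mulR A).mulR B = f.mulR (A * B) := by
  refine LF.ext rfl ?_
  funext j
  simp only [LF.mulR, Finset.smul_sum, smul_smul, Matrix.mul_apply, Finset.sum_smul]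
  rw [Finset.sum_comm]
  refine Finset.sum_congr rfl fun i _ => Finset.sum_congr rfl fun k _ => ?_
  rw [mul_comm]

theorem inner_mulR (g : RMetric (EV n) M) (f : LF ι n M) (A : Matrix ι κ ℝ) (j k : κ) :
    (g.inner f.pt ((f.mulR A).e j) ((f.mulR A).e k) : ℝ) =
      ∑ i, ∑ l, A i j * A l k * (g.inner f.pt (f.e i) (f.e l) : ℝ) := by
  have h : ∀ v w : EV n, (g.inner f.pt v w : ℝ) = (mt g).ip f.pt v w := fun v w =>
    (ip_eq g f.pt v w).symm
  simp only [h, LF.mulR, map_sum, map_smul, sum_apply, smul_apply, smul_eq_mul, Finset.mul_sum]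
  rw [Finset.sum_comm]
  refine Finset.sum_congr rfl fun i _ => Finset.sum_congr rfl fun k _ => ?_
  ring

namespace Fr

variable {g : RMetric (EV n) M}

/-- the orthogonal group -/
abbrev On (n : ℕ) : Type := Matrix.orthogonalGroup (Fin n) ℝ

/-- right action of the orthogonal group on orthonormal frames: `(e·A)_j = ∑ᵢ A_ij e_i` -/
def rot (A : On n) (f : Fr g) : Fr g := ⟨f.1.mulR A.1, by
  intro j k
  have h1 := inner_mulR g f.1 A.1 j k
  have h2 : (A.1.transpose * A.1) j k = if j = k then 1 else 0 := by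
    have h3 : A.1.transpose * A.1 = 1 := (Matrix.mem_orthogonalGroup_iff' (Fin n) ℝ).1 A.2
    rw [h3, Matrix.one_apply]
  refine h1.trans (Eq.trans ?_ h2)
  rw [Matrix.mul_apply]
  refine Finset.sum_congr rfl fun i _ => ?_
  have h4 : ∀ l, (g.inner f.1.pt (f.1.e i) (f.1.e l) : ℝ) = if i = l then 1 else 0 :=
    fun l => f.2 i l
  simp only [h4, mul_ite, mul_one, mul_zero, Finset.sum_ite_eq, Finset.mem_univ, if_true,
    Matrix.transpose_apply]⟩

@[simp] theorem rot_pt (A : On n) (f : Fr g) : (rot A f).pt = f.pt := rfl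

theorem rot_e (A : On n) (f : Fr g) (j : Fin n) : (rot A f).e j = ∑ i, A.1 i j • f.e i := rfl

@[simp] theorem rot_one (f : Fr g) : rot 1 f = f := Subtype.ext (mulR_one f.1)

theorem rot_rot (A B : On n) (f : Fr g) : rot B (rot A f) = rot (A * B) f :=
  Subtype.ext (mulR_mulR f.1 A.1 B.1)

theorem continuous_rot [NeZero n] : Continuous (fun q : On n × Fr g => rot q.1 q.2) := by
  refine Continuous.subtype_mk ?_ _
  exact continuous_mulR.comp ((continuous_subtype_val.comp continuous_fst).prodMk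
    (continuous_val.comp continuous_snd))

theorem linearIndependent (f : Fr g) : LinearIndependent ℝ f.e := by
  have hip : ∀ v w : EV n, (g.inner f.pt v w : ℝ) = (mt g).ip f.pt v w := fun v w =>
    (ip_eq g f.pt v w).symm
  have ho : ∀ i j, (mt g).ip f.pt (f.e i) (f.e j) = if i = j then 1 else 0 := fun i j =>
    (hip _ _).symm.trans (f.2 i j)
  rw [linearIndependent_iff']
  intro s c hc i hi
  have h1 := congrArg (fun v => (mt g).ip f.pt v (f.e i)) hc
  simp only [map_sum, map_smul, sum_apply, smul_apply, smul_eq_mul, ho, map_zero, zero_apply,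
    mul_ite, mul_one, mul_zero, Finset.sum_ite_eq', hi, if_true] at h1
  exact h1

/-- components of a tangent vector in an orthonormal frame -/
theorem expand (f : Fr g) (v : EV n) : v = ∑ i, (g.inner f.pt v (f.e i) : ℝ) • f.e i := by
  have hip : ∀ v w : EV n, (g.inner f.pt v w : ℝ) = (mt g).ip f.pt v w := fun v w =>
    (ip_eq g f.pt v w).symm
  have ho : ∀ i j, (mt g).ip f.pt (f.e i) (f.e j) = if i = j then 1 else 0 := fun i j =>
    (hip _ _).symm.trans (f.2 i j)
  have hli : LinearIndependent ℝ f.e := f.linearIndependent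
  have hspan : Submodule.span ℝ (range f.e) = ⊤ := by
    apply hli.span_eq_top_of_card_eq_finrank'
    simp
  have hv : v ∈ Submodule.span ℝ (range f.e) := by rw [hspan]; trivial
  obtain ⟨c, hc⟩ := (Submodule.mem_span_range_iff_exists_fun ℝ).1 hv
  have hci : ∀ i, (g.inner f.pt v (f.e i) : ℝ) = c i := by
    intro i
    rw [hip, ← hc]
    simp only [map_sum, map_smul, sum_apply, smul_apply, smul_eq_mul, ho, mul_ite, mul_one,
      mul_zero, Finset.sum_ite_eq', Finset.mem_univ, if_true]
  simp only [hci]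
  exact hc.symm

/-- the orthogonal group acts transitively on the frames at a point -/
theorem exists_rot {f f' : Fr g} (h : f.pt = f'.pt) : ∃ A : On n, rot A f = f' := by
  obtain ⟨⟨x, e⟩, hf⟩ := f
  obtain ⟨⟨x', e'⟩, hf'⟩ := f'
  change x = x' at h
  subst h
  let f : Fr g := ⟨⟨x, e⟩, hf⟩
  have hip : ∀ v w : EV n, (g.inner x v w : ℝ) = (mt g).ip x v w := fun v w =>
    (ip_eq g x v w).symm
  have hsymm : ∀ v w : EV n, (g.inner x v w : ℝ) = (g.inner x w v : ℝ) := fun v w =>
    g.symm x v w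
  have hexp : ∀ v : EV n, v = ∑ i, (g.inner x v (e i) : ℝ) • e i := fun v => expand f v
  let A : Matrix (Fin n) (Fin n) ℝ := fun i j => (g.inner x (e' j) (e i) : ℝ)
  have hA : A.transpose * A = 1 := by
    ext j k
    have h1 : (g.inner x (e' j) (e' k) : ℝ) = if j = k then 1 else 0 := hf' j k
    rw [Matrix.one_apply, ← h1]
    conv_rhs => rw [hexp (e' k)]
    rw [Matrix.mul_apply, hip]
    simp only [map_sum, map_smul, smul_eq_mul]
    refine Finset.sum_congr rfl fun i _ => ?_
    rw [← hip (e' j) (e i), mul_comm]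
    rfl
  refine ⟨⟨A, ?_⟩, ?_⟩
  · rw [Matrix.mem_orthogonalGroup_iff']
    exact hA
  · refine Fr.ext' rfl fun j => ?_
    exact (hexp (e' j)).symm

end Fr

end Vale.Agent.P207.Q
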