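import Vale.Agent.P207.Q.H916.Fr7
import Vale.Agent.P207.Q.H892.Meas
import Vale.Agent.P207.Q.H413.FlowCal
import Vale.Agent.P207.BlkL

/-!
# P207, n = 3: the calculus `Cal` of the frame bundle
-/

open scoped Manifold ContDiff ENNReal Topology
open Bundle MeasureTheory Set Filter Topology VectorField

noncomputable section

set_option maxSynthPendingDepth 3
set_option linter.unusedSectionVars false

namespace Vale.Agent.P207.Q

open Vale.Agent.P255 (RMetric coefIn Gam Riem IsGeo Metric Npc ExpSys toMetric geo expg cc trans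
  IsGeodesic coefL chris chrisB IsMetricOn covD)
open H413 (Idx Flows SClass Cal intL)

section General

variable {n : ℕ}
variable {M : Type} [TopologicalSpace M] [ChartedSpace (EV n) M] [IsManifold 𝓘(ℝ, EV n) ∞ M]

/-- the algebra of smooth functions on the frame bundle -/
def SmFr [NeZero n] (g : RMetric (EV n) M) : Subalgebra ℝ C(Fr g, ℝ) where
  carrier := {f | SmF (fun p => f p)}
  mul_mem' hf hf' := SmF.mul hf hf'
  add_mem' hf hf' := SmF.add hf hf'
  algebraMap_mem' r := SmF.const r

theorem mem_SmFr [NeZero n] {g : RMetric (EV n) M} {f : C(Fr g, ℝ)} :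
    f ∈ SmFr g ↔ SmF (fun p => f p) := Iff.rfl

/-- the flows of the horizontal fields of the vectors of the frame -/
structure HorFlows (g : RMetric (EV n) M) where
  Φ : Fin n → ℝ → Fr g → Fr g
  hor : ∀ i, IsHorFlow g (Pi.single i 1) (Φ i)
  cont : ∀ i, Continuous fun q : ℝ × Fr g => Φ i q.1 q.2

/-- the invariant probability measure of the frame bundle (properties of 892's measure) -/
structure IsMP [NeZero n] {g : RMetric (EV n) M} (m : Measure (UT g)) (mP : Measure (Fr g)) :
    Prop where
  prob : IsProbabilityMeasure mP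
  openPos : mP.IsOpenPosMeasure
  rot : ∀ A : Fr.On n, MeasurePreserving (Fr.rot A : Fr g → Fr g) mP mP
  ut : MeasurePreserving (fun f : Fr g => f.ut 0) mP m
  lift : ∀ Φ : Fr g → Fr g, Continuous Φ →
    (∀ A ∈ H892.Stab n, ∀ f, Φ (Fr.rot A f) = Fr.rot A (Φ f)) →
    ∀ φ : UT g → UT g, MeasurePreserving φ m m → (∀ f, (Φ f).ut 0 = φ (f.ut 0)) →
      MeasurePreserving Φ mP mP

theorem exists_isMP [NeZero n] [CompactSpace M] [T2Space M] [MeasurableSpace M] [BorelSpace M]
    [Nonempty M] {g : RMetric (EV n) M} {μ : Measure M} {m : Measure (UT g)}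
    (hμ : IsRiemVol g μ) (hm : IsLiouville g μ m) : ∃ mP : Measure (Fr g), IsMP m mP := by
  obtain ⟨mP, h1, h2, h3, h4, h5⟩ := H892.exists_mP hμ hm
  exact ⟨mP, h1, h2, h3, h4, h5⟩

theorem mulVec_of_mem_Stab [NeZero n] {A : Fr.On n} (hA : A ∈ H892.Stab n) :
    A.1.mulVec (Pi.single 0 1) = Pi.single 0 1 := by
  have h1 := congrArg (fun v : EuclideanSpace ℝ (Fin n) => v.ofLp) (H892.mem_Stab.1 hA)
  simpa [H892.act] using h1

variable {g : RMetric (EV n) M}

theorem HorFlows.cont_t (H : HorFlows g) (i : Fin n) (t : ℝ) : Continuous (H.Φ i t) := by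
  have h2 : Continuous fun p : Fr g => ((t, p) : ℝ × Fr g) := Continuous.prodMk_right t
  have h3 := (H.cont i).comp h2
  exact h3

/-- the frame flow of `e₀` preserves the measure -/
theorem HorFlows.mp_zero [NeZero n] [CompactSpace M] [T2Space M] (H : HorFlows g)
    {m : Measure (UT g)} {mP : Measure (Fr g)} (hP : IsMP m mP) {φ : ℝ → UT g → UT g}
    (hφ : IsGeoFlow g φ) (hmp : ∀ t, MeasurePreserving (φ t) m m) (t : ℝ) :
    MeasurePreserving (H.Φ 0 t) mP mP :=
  hP.lift (H.Φ 0 t) (H.cont_t 0 t)
    (fun A hA f => (H.hor 0).rot (H.hor 0) A (mulVec_of_mem_Stab hA) t f)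
    (φ t) (hmp t) fun f => (H.hor 0).ut_eq hφ t f

theorem exists_on_single [NeZero n] (i : Fin n) :
    ∃ A : Fr.On n, A.1.mulVec (Pi.single 0 1) = Pi.single i 1 := by
  by_cases hi : i = 0
  · exact ⟨1, by rw [hi]; exact Matrix.one_mulVec _⟩
  · have hA := isGen_rot (n := n) hi
    refine ⟨hA.on (Real.pi / 2), ?_⟩
    change (rotM (Brk.rot i 0) (Real.pi / 2)).mulVec (Pi.single 0 1) = _
    have h1 : rotM (Brk.rot (ι := Fin n) i 0) (Real.pi / 2) =
        1 + Brk.rot i 0 + Brk.rot i 0 * Brk.rot i 0 := by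
      simp [rotM]
    have h2 : (Brk.rot (ι := Fin n) i 0).mulVec (Pi.single 0 1) = Pi.single i 1 := by
      rw [Brk.rot, Matrix.sub_mulVec, Matrix.single_mulVec, Matrix.single_mulVec]
      ext j
      by_cases hj : j = i <;> simp [hj, hi, Function.update]
    have h3 : (Brk.rot (ι := Fin n) i 0).mulVec (Pi.single i 1) = - Pi.single 0 1 := by
      rw [Brk.rot, Matrix.sub_mulVec, Matrix.single_mulVec, Matrix.single_mulVec]
      ext j
      by_cases hj : j = 0 <;> simp [hj, hi, Ne.symm hi, Function.update]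
    rw [h1, Matrix.add_mulVec, Matrix.add_mulVec, Matrix.one_mulVec, h2, ← Matrix.mulVec_mulVec,
      h2, h3]
    abel

/-- all the horizontal flows preserve the measure -/
theorem HorFlows.mp [NeZero n] [CompactSpace M] [T2Space M] (H : HorFlows g)
    {m : Measure (UT g)} {mP : Measure (Fr g)} (hP : IsMP m mP) {φ : ℝ → UT g → UT g}
    (hφ : IsGeoFlow g φ) (hmp : ∀ t, MeasurePreserving (φ t) m m) (i : Fin n) (t : ℝ) :
    MeasurePreserving (H.Φ i t) mP mP := by
  obtain ⟨A, hA⟩ := exists_on_single (n := n) i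
  have h1 : ∀ f, H.Φ 0 t (Fr.rot A f) = Fr.rot A (H.Φ i t f) := fun f =>
    (H.hor 0).rot (H.hor i) A hA t f
  have h2 : H.Φ i t = Fr.rot A⁻¹ ∘ H.Φ 0 t ∘ Fr.rot A := by
    funext f
    simp only [Function.comp_apply, h1, Fr.rot_rot, mul_inv_cancel, Fr.rot_one]
  rw [h2]
  exact (hP.rot A⁻¹).comp ((H.mp_zero hP hφ hmp t).comp (hP.rot A))

end General

/-! ### dimension three -/

section Three

variable {M : Type} [TopologicalSpace M] [ChartedSpace (EV 3) M] [IsManifold 𝓘(ℝ, EV 3) ∞ M]
variable {g : RMetric (EV 3) M}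

/-- the matrix of a vertical field -/
theorem isGenV (i : Fin 2) : IsGen (Brk.rot (ι := Fin 3) i.succ 0) :=
  isGen_rot (Fin.succ_ne_zero i)

theorem isGenR : IsGen (Brk.rot (ι := Fin 3) 2 1) := isGen_rot (by decide)

/-- the six fields -/
def fld (g : RMetric (EV 3) M) : Idx → ChField g
  | .X => horZ g (Pi.single 0 1)
  | .H i => horZ g (Pi.single i.succ 1)
  | .V i => verZ g (Brk.rot i.succ 0)
  | .R => verZ g (Brk.rot 2 1)

/-- the six flows -/
def flw (H : HorFlows g) : Idx → ℝ → Fr g → Fr g
  | .X => H.Φ 0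
  | .H i => H.Φ i.succ
  | .V i => verFlow (isGenV i)
  | .R => verFlow isGenR

theorem isFlow_flw (H : HorFlows g) (k : Idx) : IsFlow (fld g k) (flw H k) := by
  cases k with
  | X => exact (H.hor 0).isFlow
  | H i => exact (H.hor i.succ).isFlow
  | V i => exact isFlow_ver (isGenV i)
  | R => exact isFlow_ver isGenR

variable [CompactSpace M] [T2Space M] {m : Measure (UT g)} {mP : Measure (Fr g)}
  {φ : ℝ → UT g → UT g}

/-- the six measure preserving flows -/
def frFlows (H : HorFlows g) (hP : IsMP m mP) (hφ : IsGeoFlow g φ)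
    (hmp : ∀ t, MeasurePreserving (φ t) m m) : Flows mP where
  Φ := flw H
  cont := by
    intro k
    cases k with
    | X => exact H.cont 0
    | H i => exact H.cont i.succ
    | V i => exact continuous_verFlow (isGenV i)
    | R => exact continuous_verFlow isGenR
  zero := fun k p => (isFlow_flw H k).zero p
  add := by
    intro k s t x
    cases k with
    | X => exact (H.hor 0).add s t x
    | H i => exact (H.hor i.succ).add s t x
    | V i => exact verFlow_add (isGenV i) s t x
    | R => exact verFlow_add isGenR s t x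
  mp := by
    intro k t
    cases k with
    | X => exact H.mp hP hφ hmp 0 t
    | H i => exact H.mp hP hφ hmp i.succ t
    | V i => exact hP.rot _
    | R => exact hP.rot _

/-- the class of smooth functions -/
def frClass (H : HorFlows g) (hP : IsMP m mP) (hφ : IsGeoFlow g φ)
    (hmp : ∀ t, MeasurePreserving (φ t) m m)
    (hcomp : ∀ t, ∀ f : Fr g → ℝ, SmF f → SmF (fun p => f (H.Φ 0 t p)))
    (hdense : (SmFr g).topologicalClosure = ⊤) : SClass (frFlows H hP hφ hmp) where
  S := SmFr g
  der := by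
    intro k f hf
    refine ⟨⟨dZ (fld g k) (fun p => f p), ((isFlow_flw H k).smF_dZ hf).continuous⟩,
      (isFlow_flw H k).smF_dZ hf, fun p => ?_⟩
    have h1 := (isFlow_flw H k).hasDerivAt hf p 0
    rw [(isFlow_flw H k).zero] at h1
    exact h1
  comp := fun t f hf => hcomp t (fun p => f p) hf
  dense := hdense

section Dd

variable (H : HorFlows g) (hP : IsMP m mP) (hφ : IsGeoFlow g φ)
  (hmp : ∀ t, MeasurePreserving (φ t) m m)
  (hcomp : ∀ t, ∀ f : Fr g → ℝ, SmF f → SmF (fun p => f (H.Φ 0 t p)))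
  (hdense : (SmFr g).topologicalClosure = ⊤)

theorem dd_apply (k : Idx) (f : (frClass H hP hφ hmp hcomp hdense).S) (p : Fr g) :
    ((frClass H hP hφ hmp hcomp hdense).dd k f : C(Fr g, ℝ)) p =
      dZ (fld g k) (fun p => (f : C(Fr g, ℝ)) p) p := by
  have h1 := (frClass H hP hφ hmp hcomp hdense).hasDerivAt_dd k f p
  have h2 := (isFlow_flw H k).hasDerivAt (f := fun p => (f : C(Fr g, ℝ)) p) f.2 p 0
  rw [(isFlow_flw H k).zero] at h2
  exact h1.unique h2

theorem coe_dd (k : Idx) (f : (frClass H hP hφ hmp hcomp hdense).S) :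
    (fun p => ((frClass H hP hφ hmp hcomp hdense).dd k f : C(Fr g, ℝ)) p) =
      dZ (fld g k) (fun p => (f : C(Fr g, ℝ)) p) :=
  funext fun p => dd_apply H hP hφ hmp hcomp hdense k f p

/-- the calculus of the frame bundle -/
def frCal [IsProbabilityMeasure mP] : Cal (intL mP) :=
  (frClass H hP hφ hmp hcomp hdense).cal
    (by
      intro i f
      apply Subtype.ext
      refine ContinuousMap.ext fun p => ?_
      have h1 := bracket_ver_hor (isGenV i) H.hor (f := fun p => (f : C(Fr g, ℝ)) p) f.2 0 p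
      change ((frClass H hP hφ hmp hcomp hdense).dd (.V i) _ : C(Fr g, ℝ)) p -
        ((frClass H hP hφ hmp hcomp hdense).dd .X _ : C(Fr g, ℝ)) p = _
      rw [dd_apply, dd_apply, dd_apply, coe_dd, coe_dd]
      refine h1.trans ?_
      rw [Finset.sum_eq_single i.succ]
      · have h2 : Brk.rot (ι := Fin 3) i.succ 0 i.succ 0 = 1 := by
          fin_cases i <;> simp [Brk.rot, Matrix.single]
        rw [h2, one_smul]
        rfl
      · intro d _ hd
        have h2 : Brk.rot (ι := Fin 3) i.succ 0 d 0 = 0 := by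
          have h3 : i.succ ≠ d := Ne.symm hd
          simp [Brk.rot, Matrix.single, h3, Fin.succ_ne_zero]
        rw [h2, zero_smul]
      · intro h; exact absurd (Finset.mem_univ _) h)
    (by
      intro i j f
      apply Subtype.ext
      refine ContinuousMap.ext fun p => ?_
      have h1 := bracket_ver_hor (isGenV i) H.hor (f := fun p => (f : C(Fr g, ℝ)) p) f.2 j.succ p
      change ((frClass H hP hφ hmp hcomp hdense).dd (.V i) _ : C(Fr g, ℝ)) p -
        ((frClass H hP hφ hmp hcomp hdense).dd (.H j) _ : C(Fr g, ℝ)) p = _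
      rw [dd_apply, dd_apply, coe_dd, coe_dd]
      refine h1.trans ?_
      rw [Finset.sum_eq_single 0]
      · by_cases hij : i = j
        · have h2 : Brk.rot (ι := Fin 3) i.succ 0 0 j.succ = -1 := by
            subst hij
            simp [Brk.rot, Matrix.single, Fin.succ_ne_zero]
          rw [h2, if_pos hij]
          change _ = - ((frClass H hP hφ hmp hcomp hdense).dd .X f : C(Fr g, ℝ)) p
          rw [dd_apply, neg_one_smul]
          rfl
        · have h2 : Brk.rot (ι := Fin 3) i.succ 0 0 j.succ = 0 := by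
            have h3 : ¬ (i.succ = j.succ) := fun h => hij (Fin.succ_injective _ h)
            simp [Brk.rot, Matrix.single, Fin.succ_ne_zero, h3]
          rw [h2, if_neg hij, zero_smul]
          rfl
      · intro d _ hd
        have h2 : Brk.rot (ι := Fin 3) i.succ 0 d j.succ = 0 := by
          have h3 : (0 : Fin 3) ≠ d := Ne.symm hd
          have h4 : (0 : Fin 3) ≠ j.succ := (Fin.succ_ne_zero j).symm
          simp [Brk.rot, Matrix.single, h3, h4]
        rw [h2, zero_smul]
      · intro h; exact absurd (Finset.mem_univ _) h)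
    (by
      intro f
      apply Subtype.ext
      refine ContinuousMap.ext fun p => ?_
      have hABC : Brk.rot (ι := Fin 3) (Fin.succ 0) 0 * Brk.rot (Fin.succ 1) 0 -
          Brk.rot (Fin.succ 1) 0 * Brk.rot (Fin.succ 0) 0 = Brk.rot 2 1 := by
        ext i j
        fin_cases i <;> fin_cases j <;>
          simp [Brk.rot, Matrix.mul_apply, Fin.sum_univ_three, Matrix.single]
      have h1 := bracket_ver_ver (isGenV 0) (isGenV 1) isGenR hABC
        (f := fun p => (f : C(Fr g, ℝ)) p) f.2 p
      change ((frClass H hP hφ hmp hcomp hdense).dd (.V 0) _ : C(Fr g, ℝ)) p -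
        ((frClass H hP hφ hmp hcomp hdense).dd (.V 1) _ : C(Fr g, ℝ)) p = _
      rw [dd_apply, dd_apply, dd_apply, coe_dd, coe_dd]
      exact h1)

end Dd

end Three

end Vale.Agent.P207.Q
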