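import Vale.Agent.P207.Q.H916.Fr3
import Vale.Agent.P207.Q.H129.Par

/-!
# P207, n = 3, block A2: horizontal flows on the frame bundle
-/

open scoped Manifold ContDiff ENNReal Topology
open Bundle MeasureTheory Set Filter Topology

noncomputable section

set_option maxSynthPendingDepth 3
set_option linter.unusedSectionVars false

namespace Vale.Agent.P207.Q

open Vale.Agent.P255 (RMetric coefIn Gam Riem IsGeo Metric Npc ExpSys toMetric geo expg cc trans
  IsGeodesic coefL chris chrisB IsMetricOn covD Compat prodF)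

variable {ι κ : Type} [Fintype ι] {n : ℕ}
variable {M : Type} [TopologicalSpace M] [ChartedSpace (EV n) M] [IsManifold 𝓘(ℝ, EV n) ∞ M]
variable {g : RMetric (EV n) M}

/-! ### right action on horizontal curves -/

theorem hF_stR [Fintype κ] {G : EV n → EV n →L[ℝ] EV n →L[ℝ] ℝ} (A : Matrix ι κ ℝ)
    (ξ : κ → ℝ) (y : St ι n) : hF G ξ (stR A y) = stR A (hF G (A.mulVec ξ) y) := by
  have h1 : ∑ j, ξ j • (stR A y).2 j = ∑ i, (A.mulVec ξ) i • y.2 i := by
    simp only [stR, Finset.smul_sum, smul_smul, Matrix.mulVec, dotProduct, Finset.sum_smul]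
    rw [Finset.sum_comm]
    refine Finset.sum_congr rfl fun i _ => Finset.sum_congr rfl fun k _ => ?_
    rw [mul_comm]
  refine Prod.ext h1 ?_
  funext j
  change - chris G y.1 (∑ j, ξ j • (stR A y).2 j) (∑ i, A i j • y.2 i) =
    ∑ i, A i j • (- chris G y.1 (∑ i, (A.mulVec ξ) i • y.2 i) (y.2 i))
  rw [h1]
  simp only [← P255.chrisB_apply, map_sum, map_smul, smul_neg, Finset.sum_neg_distrib]

theorem IsHorOn.mulR [Nonempty ι] [Fintype κ] {A : Matrix ι κ ℝ} {ξ : κ → ℝ}
    {c : ℝ → LF ι n M} {s : Set ℝ} (h : IsHorOn g (A.mulVec ξ) c s) :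
    IsHorOn g ξ (fun t => (c t).mulR A) s := by
  refine ⟨fun t ht => ?_, fun a t ht ha => ?_⟩
  · have h1 : Continuous (fun f : LF ι n M => f.mulR A) :=
      continuous_mulR.comp (continuous_const.prodMk continuous_id)
    exact h1.continuousAt.comp (h.cont t ht)
  · have h1 := h.eqn a t ht ha
    simp only [chF_mulR, hF_stR]
    have hy1 : HasDerivAt (fun r => (chF a (c r)).1) _ t := h1.fst
    have hy2 : ∀ i, HasDerivAt (fun r => (chF a (c r)).2 i) _ t :=
      fun i => (hasDerivAt_pi.1 h1.snd) i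
    refine HasDerivAt.prodMk hy1 ?_
    rw [hasDerivAt_pi]
    intro j
    exact HasDerivAt.fun_sum fun i _ => (hy2 i).const_smul (A i j)

/-! ### horizontal flows -/

/-- `Φ` is the flow of the horizontal field with direction `∑ ξᵢ eᵢ` on the frame bundle -/
def IsHorFlow (g : RMetric (EV n) M) (ξ : Fin n → ℝ) (Φ : ℝ → Fr g → Fr g) : Prop :=
  ∀ f, Φ 0 f = f ∧ IsHorOn g ξ (fun t => (Φ t f).1) univ

section Flow

variable [NeZero n] [T2Space M] {ξ : Fin n → ℝ} {Φ Ψ : ℝ → Fr g → Fr g}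

theorem IsHorFlow.zero (h : IsHorFlow g ξ Φ) (f : Fr g) : Φ 0 f = f := (h f).1

/-- a horizontal curve is an orbit -/
theorem IsHorFlow.eq_of_isHorOn (h : IsHorFlow g ξ Φ) {c : ℝ → Fr g}
    (hc : IsHorOn g ξ (fun t => (c t).1) univ) (t : ℝ) : c t = Φ t (c 0) := by
  have h1 := hc.eqOn (h (c 0)).2 isOpen_univ isPreconnected_univ (mem_univ (0 : ℝ))
    (congrArg Subtype.val (h.zero (c 0)).symm) (mem_univ t)
  exact Subtype.ext h1

theorem IsHorFlow.unique (h : IsHorFlow g ξ Φ) (h' : IsHorFlow g ξ Ψ) : Φ = Ψ := by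
  funext t f
  have h1 := h'.eq_of_isHorOn (h f).2 t
  rw [h.zero] at h1
  exact h1

theorem IsHorFlow.add (h : IsHorFlow g ξ Φ) (s t : ℝ) (f : Fr g) :
    Φ (s + t) f = Φ s (Φ t f) := by
  have h1 : IsHorOn g ξ (fun s => (Φ (s + t) f).1) univ :=
    ((h f).2.shift t).mono fun _ _ => mem_univ _
  have h2 := h.eq_of_isHorOn (c := fun s => Φ (s + t) f) h1 s
  simp only [zero_add] at h2
  exact h2

/-- equivariance under the right action of the orthogonal group -/
theorem IsHorFlow.rot (h : IsHorFlow g ξ Φ) {ξ' : Fin n → ℝ} (h' : IsHorFlow g ξ' Ψ)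
    (A : Fr.On n) (hA : A.1.mulVec ξ = ξ') (t : ℝ) (f : Fr g) :
    Φ t (Fr.rot A f) = Fr.rot A (Ψ t f) := by
  have h1 : IsHorOn g ξ (fun t => (Fr.rot A (Ψ t f)).1) univ := by
    have h2 := (h' f).2
    rw [← hA] at h2
    exact h2.mulR
  have h3 := h.eq_of_isHorOn (c := fun t => Fr.rot A (Ψ t f)) h1 t
  rw [h'.zero] at h3
  exact h3.symm

theorem IsHorFlow.pt_zero (h : IsHorFlow g ξ Φ) (f : Fr g) : (Φ 0 f).pt = f.pt := by
  rw [h.zero]

theorem IsHorFlow.continuous_left (h : IsHorFlow g ξ Φ) (f : Fr g) :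
    Continuous fun t => Φ t f := by
  refine Continuous.subtype_mk (f := fun t => (Φ t f).1) ?_ _
  rw [continuous_iff_continuousAt]
  exact fun t => (h f).2.cont t (mem_univ t)

theorem IsHorFlow.eqn (h : IsHorFlow g ξ Φ) (f : Fr g) {a : M} {t : ℝ}
    (ha : (Φ t f).pt ∈ (chartAt (EV n) a).source) :
    HasDerivAt (fun r => chF a (Φ r f).1) (hF ((mt g).coef a) ξ (chF a (Φ t f).1)) t :=
  (h f).2.eqn a t (mem_univ t) ha

end Flow

/-! ### the flow in the direction of a vector of the frame covers the geodesic flow -/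

section Geod

variable [Nonempty ι] [DecidableEq ι] {c : ℝ → LF ι n M}

theorem IsHorOn.deriv_cc {i : ι} (h : IsHorOn g (Pi.single i 1) c univ) {a : M} {t : ℝ}
    (ha : (c t).pt ∈ (chartAt (EV n) a).source) :
    HasDerivAt (cc (E := EV n) (fun r => (c r).pt) a) ((chF a (c t)).2 i) t := by
  have h1 : HasDerivAt (fun r => (chF a (c r)).1) _ t := (h.eqn a t (mem_univ t) ha).fst
  refine h1.congr_deriv ?_
  simp only [hF, Pi.single_apply, ite_smul, one_smul, zero_smul, Finset.sum_ite_eq',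
    Finset.mem_univ, if_true]

theorem IsHorOn.isGeodesic {i : ι} (h : IsHorOn g (Pi.single i 1) c univ) :
    IsGeodesic (mt g) (fun t => (c t).pt) := by
  have hc : Continuous (fun t => (c t).pt) :=
    continuous_LF_pt.comp (continuous_iff_continuousAt.2 fun t => h.cont t (mem_univ t))
  refine ⟨hc.continuousOn, fun a t _ ha => ?_⟩
  have hev : ∀ᶠ r in 𝓝 t, (c r).pt ∈ (chartAt (EV n) a).source :=
    hc.continuousAt.preimage_mem_nhds ((chartAt (EV n) a).open_source.mem_nhds ha)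
  have h1 := h.deriv_cc ha
  have h2 : deriv (cc (E := EV n) (fun r => (c r).pt) a) =ᶠ[𝓝 t] fun r => (chF a (c r)).2 i := by
    filter_upwards [hev] with r hr
    exact (h.deriv_cc hr).deriv
  have h3 : HasDerivAt (fun r => (chF a (c r)).2 i) _ t :=
    (hasDerivAt_pi.1 (h.eqn a t (mem_univ t) ha).snd) i
  have h4 := h3.congr_of_eventuallyEq h2
  refine ⟨h1.differentiableAt, h4.differentiableAt, ?_⟩
  rw [h4.deriv, h1.deriv]
  simp only [hF, Pi.single_apply, ite_smul, one_smul, zero_smul, Finset.sum_ite_eq',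
    Finset.mem_univ, if_true]
  rfl

theorem IsHorOn.stv_eq {i : ι} (h : IsHorOn g (Pi.single i 1) c univ) (t : ℝ) :
    stv (fun t => (c t).pt) t = (c t).vec i := by
  refine stv_eq_of_deriv h.isGeodesic rfl ?_
  have ha : (c t).pt ∈ (chartAt (EV n) (c t).pt).source := mem_chart_source _ _
  have h1 := (h.deriv_cc ha).deriv
  refine h1.trans ?_
  exact P255.fderiv_trans_self (c t).pt (mem_chart_target (EV n) (c t).pt) _

end Geod

section Geod2

variable [NeZero n] [CompactSpace M] [T2Space M] {Φ : ℝ → Fr g → Fr g} {φ : ℝ → UT g → UT g}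

theorem IsHorFlow.ut_eq {i : Fin n} (h : IsHorFlow g (Pi.single i 1) Φ) (hφ : IsGeoFlow g φ)
    (t : ℝ) (f : Fr g) : (Φ t f).ut i = φ t (f.ut i) := by
  apply Subtype.ext
  rw [hφ.val_eq]
  have h1 := (h f).2
  have h2 := h1.isGeodesic
  have h3 : stv (fun t => (Φ t f).1.pt) 0 = (f.ut i).1 := by
    rw [h1.stv_eq]
    simp only [h.zero]
    rfl
  have h4 := eq_geo h2 h3
  rw [← h4, h1.stv_eq]
  rfl

theorem IsHorFlow.pt_eq {i : Fin n} (h : IsHorFlow g (Pi.single i 1) Φ) (t : ℝ) (f : Fr g) :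
    (Φ t f).pt = geo (mt g) f.pt (f.e i) t := by
  have h1 := (h f).2
  have h3 : stv (fun t => (Φ t f).1.pt) 0 = (f.ut i).1 := by
    rw [h1.stv_eq]
    simp only [h.zero]
    rfl
  exact congrFun (eq_geo h1.isGeodesic h3) t

/-- the frame, in charts, is a parallel orthonormal family along the geodesic -/
theorem IsHorFlow.parFrame {ξ : Fin n → ℝ} (h : IsHorFlow g ξ Φ) (f : Fr g) {μ : Type}
    [DecidableEq μ] (j : μ → Fin n) (hj : Function.Injective j) :
    ParFrame (mt g) (fun t => (Φ t f).pt) (fun k a t => (chF a (Φ t f).1).2 (j k)) := by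
  have hc : Continuous (fun t => (Φ t f).pt) := Fr.continuous_pt.comp (h.continuous_left f)
  have hcomp : ∀ k, Compat (fun t => (Φ t f).pt) (fun a t => (chF a (Φ t f).1).2 (j k)) := by
    intro k a b t ha hb
    have h1 := chF_chFs_trans a b (y := chF a (Φ t f).1) ((chartAt (EV n) a).map_source ha) (by
      have h2 : (chartAt (EV n) a).symm (chF a (Φ t f).1).1 = (Φ t f).pt :=
        (chartAt (EV n) a).left_inv ha
      rw [h2]; exact hb)
    rw [chFs_chF a (f := (Φ t f).1) ha] at h1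
    simp only [h1]
    rfl
  refine ⟨hcomp, fun k a t ha => ?_, fun k a t ha => ?_, fun k l t => ?_⟩
  · exact ((hasDerivAt_pi.1 (h.eqn f ha).snd) (j k)).differentiableAt
  · have h1 : HasDerivAt (fun r => (chF a (Φ r f).1).2 (j k)) _ t :=
      (hasDerivAt_pi.1 (h.eqn f ha).snd) (j k)
    have h2 : HasDerivAt (cc (E := EV n) (fun r => (Φ r f).pt) a) _ t := (h.eqn f ha).fst
    rw [covD, h1.deriv, h2.deriv]
    exact neg_add_cancel _
  · have ha : (Φ t f).pt ∈ (chartAt (EV n) (Φ t f).pt).source := mem_chart_source _ _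
    rw [P255.prodF_eq (mt g) (hcomp k) (hcomp l) ha]
    have h1 := inner_chF g (Φ t f).pt (f := (Φ t f).1) ha (j k) (j l)
    refine h1.trans (((Φ t f).2 (j k) (j l)).trans ?_)
    simp only [hj.eq_iff]

end Geod2

end Vale.Agent.P207.Q
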