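import Vale.Agent.P207.Q.H916.FlipFr
import Vale.Agent.P207.Q.H130.Desc
import Vale.Agent.P207.Q.H892.BrkFr

/-!
# P207, n = 3: the curvature matrix is invariant under the flip
-/

open scoped Manifold ContDiff ENNReal Topology
open Bundle MeasureTheory Set Filter Topology

noncomputable section

set_option linter.unusedSectionVars false

namespace Vale.Agent.P207.Q

open Vale.Agent.P255 (RMetric)
open H545 (Rf)
open H892 (Ef Curv)

variable {M : Type} [TopologicalSpace M] [ChartedSpace (EV 3) M] [IsManifold 𝓘(ℝ, EV 3) ∞ M]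
variable {g : RMetric (EV 3) M}

theorem flipO_apply (a i : Fin 3) : flipO.1 a i = if a = i then (![-1, 1, 1] : Fin 3 → ℝ) i else 0 := by
  change flipM a i = _
  rw [flipM, Matrix.diagonal_apply]
  by_cases h : a = i
  · rw [if_pos h, if_pos h, h]
  · rw [if_neg h, if_neg h]

theorem Rf_flip (f : Fr g) (i j k l : Fin 3) : Rf g (flipF f) i j k l =
    (![-1, 1, 1] : Fin 3 → ℝ) i * ((![-1, 1, 1] : Fin 3 → ℝ) j * ((![-1, 1, 1] : Fin 3 → ℝ) k *
      ((![-1, 1, 1] : Fin 3 → ℝ) l * Rf g f i j k l))) := by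
  rw [flipF, H130.Rf_rot]
  simp only [flipO_apply, ite_mul, zero_mul, Finset.sum_ite_eq', Finset.mem_univ, if_true]

theorem Ef_flip_11 (f : Fr g) : Ef g 1 1 (flipF f) = Ef g 1 1 f := by
  rw [H892.Ef_11, H892.Ef_11, Rf_flip]
  simp

theorem Ef_flip_22 (f : Fr g) : Ef g 2 2 (flipF f) = Ef g 2 2 f := by
  rw [H892.Ef_22, H892.Ef_22, Rf_flip]
  simp

theorem Ef_flip_12 (f : Fr g) : Ef g 1 2 (flipF f) = Ef g 1 2 f := by
  rw [H892.Ef_12, H892.Ef_12, Rf_flip]
  simp

end Vale.Agent.P207.Q
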