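import Vale.Agent.P207.Q.H916.FlipK
import Vale.Agent.P207.Q.H743.CurvSm
import Vale.Agent.P207.Q.H665.Dense
import Vale.Agent.P207.Q.FrSys3

/-!
# P207, n = 3: the frame-side objects by name

`smFr_dense`, `isFrFlows_frFlows`, `Ef_mem`, `frCurv` (the structure `Curv` over `frCal`), its
values, and the invariance of `K` under the flip.
-/

open scoped Manifold ContDiff ENNReal Topology
open Bundle MeasureTheory Set Filter Topology

noncomputable section

set_option maxSynthPendingDepth 3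
set_option linter.unusedSectionVars false

namespace Vale.Agent.P207.Q

open Vale.Agent.P255 (RMetric)
open H413 (Idx Flows SClass Cal intL)
open H892 (Ef Curv IsFrFlows)

section Dense

variable {n : ℕ} [NeZero n] {M : Type} [TopologicalSpace M] [ChartedSpace (EV n) M]
  [IsManifold 𝓘(ℝ, EV n) ∞ M] [CompactSpace M] [T2Space M]

/-- the smooth functions are dense -/
theorem smFr_dense (g : RMetric (EV n) M) : (SmFr g).topologicalClosure = ⊤ :=
  H665.dense_of_smF (SmFr g) fun _ hf => hf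

end Dense

variable {M : Type} [TopologicalSpace M] [ChartedSpace (EV 3) M] [IsManifold 𝓘(ℝ, EV 3) ∞ M]
  [CompactSpace M] [T2Space M] {g : RMetric (EV 3) M}
  {m : Measure (UT g)} {mP : Measure (Fr g)} {φ : ℝ → UT g → UT g}
  (H : HorFlows g) (hP : IsMP m mP) (hφ : IsGeoFlow g φ)
  (hmp : ∀ t, MeasurePreserving (φ t) m m)
  (hcomp : ∀ t, ∀ f : Fr g → ℝ, SmF f → SmF (fun p => f (H.Φ 0 t p)))
  (hdense : (SmFr g).topologicalClosure = ⊤)

theorem isFrFlows_frFlows : IsFrFlows (frFlows H hP hφ hmp) where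
  hX := H.hor 0
  hH := fun i => H.hor i.succ
  hV := fun _ _ _ => rfl
  hR := fun _ _ => rfl

theorem Ef_mem (a b : Fin 3) : Ef g a b ∈ (frClass H hP hφ hmp hcomp hdense).S :=
  H743.smF_Ef a b

section

variable [SecondCountableTopology M] [IsProbabilityMeasure mP]

/-- **the structure `Curv` over the calculus of the frame bundle** -/
def frCurv : Curv (frCal H hP hφ hmp hcomp hdense) :=
  H892.curvFr (isFrFlows_frFlows H hP hφ hmp) (frClass H hP hφ hmp hcomp hdense)
    (fun _ hf => hf) (Ef_mem H hP hφ hmp hcomp hdense)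

theorem frCurv_E22 : ((frCurv H hP hφ hmp hcomp hdense).E22 : C(Fr g, ℝ)) = Ef g 2 2 := rfl
theorem frCurv_E11 : ((frCurv H hP hφ hmp hcomp hdense).E11 : C(Fr g, ℝ)) = Ef g 1 1 := rfl
theorem frCurv_E12 : ((frCurv H hP hφ hmp hcomp hdense).E12 : C(Fr g, ℝ)) = Ef g 1 2 := rfl

theorem frCurv_K00 (p : Fr g) : (frCurv H hP hφ hmp hcomp hdense).K 0 0 p = Ef g 2 2 p := by
  simp [Curv.K, frCurv_E22]

theorem frCurv_K11 (p : Fr g) : (frCurv H hP hφ hmp hcomp hdense).K 1 1 p = Ef g 1 1 p := by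
  simp [Curv.K, frCurv_E11]

theorem frCurv_K01 (p : Fr g) : (frCurv H hP hφ hmp hcomp hdense).K 0 1 p = - Ef g 1 2 p := by
  simp [Curv.K, frCurv_E12]

theorem frCurv_K10 (p : Fr g) : (frCurv H hP hφ hmp hcomp hdense).K 1 0 p = - Ef g 1 2 p := by
  simp [Curv.K, frCurv_E12]

/-- **the curvature matrix is invariant under the flip** -/
theorem frCurv_K_flip (i j : Fin 2) (p : Fr g) :
    (frCurv H hP hφ hmp hcomp hdense).K i j (flipF p) =
      (frCurv H hP hφ hmp hcomp hdense).K i j p := by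
  fin_cases i <;> fin_cases j
  · change (frCurv H hP hφ hmp hcomp hdense).K 0 0 (flipF p) =
      (frCurv H hP hφ hmp hcomp hdense).K 0 0 p
    rw [frCurv_K00, frCurv_K00, Ef_flip_22]
  · change (frCurv H hP hφ hmp hcomp hdense).K 0 1 (flipF p) =
      (frCurv H hP hφ hmp hcomp hdense).K 0 1 p
    rw [frCurv_K01, frCurv_K01, Ef_flip_12]
  · change (frCurv H hP hφ hmp hcomp hdense).K 1 0 (flipF p) =
      (frCurv H hP hφ hmp hcomp hdense).K 1 0 p
    rw [frCurv_K10, frCurv_K10, Ef_flip_12]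
  · change (frCurv H hP hφ hmp hcomp hdense).K 1 1 (flipF p) =
      (frCurv H hP hφ hmp hcomp hdense).K 1 1 p
    rw [frCurv_K11, frCurv_K11, Ef_flip_11]

end

end Vale.Agent.P207.Q
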