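import Vale.Agent.P207.Q.H916.Fr8
import Vale.Agent.P207.Q.FrSys2
import Vale.Agent.P207.Q.Flip

/-!
# P207, n = 3: the flip `(v, e₁, e₂) ↦ (-v, e₁, e₂)` of the frame bundle
-/

open scoped Manifold ContDiff ENNReal Topology
open Bundle MeasureTheory Set Filter Topology VectorField

noncomputable section

set_option maxSynthPendingDepth 3
set_option linter.unusedSectionVars false

namespace Vale.Agent.P207.Q

open Vale.Agent.P255 (RMetric coefIn Gam Riem IsGeo Metric Npc ExpSys toMetric geo expg cc trans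
  IsGeodesic coefL chris chrisB IsMetricOn covD)
open H413 (Idx Flows SClass Cal intL)
open H183 (FlowS)

section General

variable {n : ℕ}
variable {M : Type} [TopologicalSpace M] [ChartedSpace (EV n) M] [IsManifold 𝓘(ℝ, EV n) ∞ M]
variable {g : RMetric (EV n) M}

theorem hF_neg {G : EV n → EV n →L[ℝ] EV n →L[ℝ] ℝ} (ξ : Fin n → ℝ) (y : St (Fin n) n) :
    hF G (-ξ) y = - hF G ξ y := by
  have h1 : ∑ i, (-ξ) i • y.2 i = - ∑ i, ξ i • y.2 i := by
    simp only [Pi.neg_apply, neg_smul, Finset.sum_neg_distrib]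
  refine Prod.ext h1 ?_
  funext j
  change - chris G y.1 (∑ i, (-ξ) i • y.2 i) (y.2 j) = - - chris G y.1 (∑ i, ξ i • y.2 i) (y.2 j)
  rw [h1]
  simp only [← P255.chrisB_apply, map_neg, neg_apply]

/-- time reversal of a horizontal flow -/
theorem IsHorFlow.neg {ξ : Fin n → ℝ} {Φ : ℝ → Fr g → Fr g} (h : IsHorFlow g ξ Φ) :
    IsHorFlow g (-ξ) (fun t => Φ (-t)) := by
  intro f
  refine ⟨?_, ⟨fun t _ => ?_, fun a t _ ha => ?_⟩⟩
  · simp only [neg_zero]
    exact (h f).1
  · exact ContinuousAt.comp (g := fun t => (Φ t f).1) ((h f).2.cont _ (mem_univ _))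
      continuous_neg.continuousAt
  · have h1 := (h f).2.eqn a (-t) (mem_univ _) ha
    rw [hF_neg]
    have h2 := HasDerivAt.scomp (h := fun t : ℝ => -t) t h1 (hasDerivAt_neg t)
    exact h2.congr_deriv (by rw [neg_one_smul])

/-- pull-back of a derivative by a map which reparametrises the flow -/
theorem dZ_comp_of [NeZero n] {Z : ChField g} {Ψ : ℝ → Fr g → Fr g} (h : IsFlow Z Ψ)
    {f : Fr g → ℝ} (hf : SmF f) {σ : Fr g → Fr g} (hσ : SmF (fun p => f (σ p))) (s : ℝ)
    (hs : ∀ t p, σ (Ψ t p) = Ψ (s * t) (σ p)) (p : Fr g) :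
    dZ Z (fun p => f (σ p)) p = s * dZ Z f (σ p) := by
  have h1 := h.hasDerivAt hσ p 0
  rw [h.zero] at h1
  have h2 := h.hasDerivAt hf (σ p) (s * 0)
  have h3 : HasDerivAt (fun t : ℝ => s * t) s 0 := by
    simpa using (hasDerivAt_id (0 : ℝ)).const_mul s
  have h4 := HasDerivAt.scomp (h := fun t : ℝ => s * t) (0 : ℝ) h2 h3
  have h5 : (fun t => f (σ (Ψ t p))) = (fun r => f (Ψ r (σ p))) ∘ fun t => s * t := by
    funext t
    simp only [Function.comp_apply, hs]
  rw [h5] at h1
  have h6 := h1.unique h4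
  rw [h6, mul_zero, h.zero, smul_eq_mul]

end General

section Three

variable {M : Type} [TopologicalSpace M] [ChartedSpace (EV 3) M] [IsManifold 𝓘(ℝ, EV 3) ∞ M]
variable {g : RMetric (EV 3) M}

/-- the matrix `diag (-1, 1, 1)` -/
def flipM : Matrix (Fin 3) (Fin 3) ℝ := Matrix.diagonal ![-1, 1, 1]

theorem flipM_sq : flipM * flipM = 1 := by
  rw [flipM, Matrix.diagonal_mul_diagonal, ← Matrix.diagonal_one]
  congr 1
  funext i
  fin_cases i <;> simp

/-- the flip as an orthogonal matrix -/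
def flipO : Fr.On 3 := ⟨flipM, (Matrix.mem_orthogonalGroup_iff' (Fin 3) ℝ).2 (by
  change flipM.transpose * flipM = 1
  rw [show flipM.transpose = flipM from Matrix.diagonal_transpose _, flipM_sq])⟩

theorem flipO_sq : flipO * flipO = 1 := Subtype.ext flipM_sq

theorem flipM_zero : flipM.mulVec (Pi.single 0 1) = -Pi.single 0 1 := by
  ext i
  fin_cases i <;> simp [flipM, Matrix.mulVec_diagonal]

theorem flipM_succ (i : Fin 2) : flipM.mulVec (Pi.single i.succ 1) = Pi.single i.succ 1 := by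
  ext j
  fin_cases i <;> fin_cases j <;> simp [flipM, Matrix.mulVec_diagonal]

theorem flipM_V (i : Fin 2) :
    flipM * Brk.rot i.succ 0 = - (Brk.rot i.succ 0 * flipM) := by
  ext j k
  fin_cases i <;> fin_cases j <;> fin_cases k <;>
    simp [flipM, Brk.rot, Matrix.diagonal_mul, Matrix.mul_diagonal, Matrix.single]

theorem flipM_R : flipM * Brk.rot 2 1 = Brk.rot 2 1 * flipM := by
  ext j k
  fin_cases j <;> fin_cases k <;>
    simp [flipM, Brk.rot, Matrix.diagonal_mul, Matrix.mul_diagonal, Matrix.single]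

theorem rotM_flip_neg {A : Matrix (Fin 3) (Fin 3) ℝ} (h : flipM * A = -(A * flipM)) (θ : ℝ) :
    rotM A θ * flipM = flipM * rotM A (-θ) := by
  have h2 : flipM * (A * A) = A * A * flipM := by
    rw [← mul_assoc, h, neg_mul, mul_assoc, h, mul_neg, neg_neg, mul_assoc]
  simp only [rotM, Real.sin_neg, Real.cos_neg, add_mul, mul_add, one_mul, mul_one, smul_mul_assoc,
    mul_smul_comm, h, h2]
  module

theorem rotM_flip {A : Matrix (Fin 3) (Fin 3) ℝ} (h : flipM * A = A * flipM) (θ : ℝ) :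
    rotM A θ * flipM = flipM * rotM A θ := by
  have h2 : flipM * (A * A) = A * A * flipM := by
    rw [← mul_assoc, h, mul_assoc, h, mul_assoc]
  simp only [rotM, add_mul, mul_add, one_mul, mul_one, smul_mul_assoc, mul_smul_comm, h, h2]

/-- the flip of frames -/
def flipF (f : Fr g) : Fr g := Fr.rot flipO f

theorem flipF_flipF (f : Fr g) : flipF (flipF f) = f := by
  unfold flipF
  rw [Fr.rot_rot, flipO_sq, Fr.rot_one]

theorem continuous_flipF : Continuous (flipF : Fr g → Fr g) := by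
  have h1 := Fr.continuous_rot (g := g)
  have h2 : Continuous fun p : Fr g => ((flipO, p) : Fr.On 3 × Fr g) := Continuous.prodMk_right _
  have h3 := h1.comp h2
  exact h3

variable [T2Space M]

theorem flip_flw (H : HorFlows g) (k : Idx) (t : ℝ) (p : Fr g) :
    flipF (flw H k t p) = flw H k (WD.sgn k * t) (flipF p) := by
  cases k with
  | X =>
    simp only [WD.sgn_X, neg_one_mul]
    have h1 := (H.hor 0).rot (H.hor 0).neg flipO flipM_zero (-t) p
    simp only [neg_neg] at h1
    exact h1.symm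
  | H i =>
    simp only [WD.sgn_H, one_mul]
    exact ((H.hor i.succ).rot (H.hor i.succ) flipO (flipM_succ i) t p).symm
  | V i =>
    simp only [WD.sgn_V, neg_one_mul]
    change Fr.rot flipO (Fr.rot ((isGenV i).on t) p) = Fr.rot ((isGenV i).on (-t)) (Fr.rot flipO p)
    rw [Fr.rot_rot, Fr.rot_rot]
    congr 1
    exact Subtype.ext (rotM_flip_neg (flipM_V i) t)
  | R =>
    simp only [WD.sgn_R, one_mul]
    change Fr.rot flipO (Fr.rot (isGenR.on t) p) = Fr.rot (isGenR.on t) (Fr.rot flipO p)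
    rw [Fr.rot_rot, Fr.rot_rot]
    congr 1
    exact Subtype.ext (rotM_flip flipM_R t)

variable [CompactSpace M] [Nonempty (Fr g)] {m : Measure (UT g)} {mP : Measure (Fr g)}
  {φ : ℝ → UT g → UT g} (H : HorFlows g) (hP : IsMP m mP) (hφ : IsGeoFlow g φ)
  (hmp : ∀ t, MeasurePreserving (φ t) m m)
  (hcomp : ∀ t, ∀ f : Fr g → ℝ, SmF f → SmF (fun p => f (H.Φ 0 t p)))
  (hdense : (SmFr g).topologicalClosure = ⊤)

/-- the flip of the frame bundle -/
def flipFr [IsProbabilityMeasure mP] (F : FlowS (frCal H hP hφ hmp hcomp hdense))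
    (hF : ∀ t p, F.φ t p = H.Φ 0 t p) : WD.Flip F where
  σ := ⟨flipF, continuous_flipF⟩
  inv := flipF_flipF
  mp := hP.rot flipO
  flow := fun r x => by
    have h1 := flip_flw H .X (-r) x
    simp only [WD.sgn_X, neg_one_mul, neg_neg] at h1
    rw [hF, hF]
    exact h1.symm
  pb := fun f => ⟨(f : C(Fr g, ℝ)).comp ⟨flipF, continuous_flipF⟩, SmF.comp_rot f.2 flipO⟩
  pb_apply := fun f x => rfl
  Y_pb := fun k f => by
    refine ContinuousMap.ext fun p => ?_
    have hf : SmF (fun p => (f : C(Fr g, ℝ)) p) := f.2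
    have e1 := dd_apply H hP hφ hmp hcomp hdense k
      (⟨(f : C(Fr g, ℝ)).comp ⟨flipF, continuous_flipF⟩, SmF.comp_rot hf flipO⟩ :
        (frClass H hP hφ hmp hcomp hdense).S) p
    have e2 := dd_apply H hP hφ hmp hcomp hdense k f (flipF p)
    have e3 := dZ_comp_of (isFlow_flw H k) hf (σ := flipF)
      (SmF.comp_rot hf flipO) (WD.sgn k) (flip_flw H k) p
    exact e1.trans (e3.trans (congrArg (fun x => WD.sgn k * x) e2.symm))

end Three

end Vale.Agent.P207.Q
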