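import Vale.Agent.P207.BlkF

/-!
# P207, n = 3, block A1: the bundle of families of tangent vectors and the orthonormal frame bundle

* `LF ι n M`: a point of `M` together with a family of tangent vectors indexed by `ι`.
* `chF a`, `chFs a`: its charts, with values in `EV n × (ι → EV n)`.
* `Fr g`: the orthonormal frames (of both orientations) of the metric `g`.
-/

open scoped Manifold ContDiff ENNReal Topology
open Bundle MeasureTheory Set Filter Topology

noncomputable section

set_option maxSynthPendingDepth 3
set_option linter.unusedSectionVars false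

namespace Vale.Agent.P207.Q

open Vale.Agent.P255 (RMetric coefIn Gam Riem IsGeo Metric Npc ExpSys toMetric geo expg cc trans
  IsGeodesic coefL chris chrisB)

/-- a point with a family of tangent vectors -/
@[ext]
structure LF (ι : Type) (n : ℕ) (M : Type) where
  pt : M
  e : ι → EV n

variable {ι : Type} {n : ℕ} {M : Type} [TopologicalSpace M] [ChartedSpace (EV n) M]
  [IsManifold 𝓘(ℝ, EV n) ∞ M]

/-- the `i`-th vector of the family, as a point of the tangent bundle -/
def LF.vec (f : LF ι n M) (i : ι) : TangentBundle 𝓘(ℝ, EV n) M := ⟨f.pt, f.e i⟩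

instance : TopologicalSpace (LF ι n M) :=
  TopologicalSpace.induced (fun f : LF ι n M => f.vec) inferInstance

theorem isInducing_vec : IsInducing (fun f : LF ι n M => f.vec) := ⟨rfl⟩

theorem continuous_vec (i : ι) : Continuous (fun f : LF ι n M => f.vec i) :=
  (continuous_apply i).comp isInducing_vec.continuous

theorem continuous_LF_pt [Nonempty ι] : Continuous (fun f : LF ι n M => f.pt) :=
  continuous_pt_TB.comp (continuous_vec (Classical.arbitrary ι))

theorem injective_vec [Nonempty ι] : Function.Injective (fun f : LF ι n M => f.vec) := by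
  intro f f' h
  have h1 : ∀ i, f.vec i = f'.vec i := fun i => congrFun h i
  have h2 : f.pt = f'.pt := congrArg (fun p : TangentBundle 𝓘(ℝ, EV n) M => p.1)
    (h1 (Classical.arbitrary ι))
  obtain ⟨x, e⟩ := f
  obtain ⟨x', e'⟩ := f'
  simp only at h2
  subst h2
  congr 1
  funext i
  have h3 := h1 i
  simp only [LF.vec] at h3
  exact eq_of_heq (Bundle.TotalSpace.mk.inj h3).2

/-! ### charts -/

section Charts

/-- the state of a family of vectors in the chart at `a` -/
def chF (a : M) (f : LF ι n M) : EV n × (ι → EV n) :=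
  (chartAt (EV n) a f.pt,
    fun i => fderiv ℝ (trans (EV n) f.pt a) (chartAt (EV n) f.pt f.pt) (f.e i))

/-- the family of vectors with given state in the chart at `a` -/
def chFs (a : M) (y : EV n × (ι → EV n)) : LF ι n M :=
  ⟨(chartAt (EV n) a).symm y.1,
    fun i => fderiv ℝ (trans (EV n) a ((chartAt (EV n) a).symm y.1)) y.1 (y.2 i)⟩

omit [IsManifold 𝓘(ℝ, EV n) ∞ M] in
theorem chT_vec (a : M) (f : LF ι n M) (i : ι) : chT a (f.vec i) = ((chF a f).1, (chF a f).2 i) :=
  rfl

omit [IsManifold 𝓘(ℝ, EV n) ∞ M] in
theorem vec_chFs (a : M) (y : EV n × (ι → EV n)) (i : ι) :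
    (chFs a y).vec i = chTs a (y.1, y.2 i) := rfl

theorem chFs_chF (a : M) {f : LF ι n M} (hf : f.pt ∈ (chartAt (EV n) a).source) :
    chFs a (chF a f) = f := by
  obtain ⟨x, e⟩ := f
  have hx : (chartAt (EV n) a).symm (chartAt (EV n) a x) = x := (chartAt (EV n) a).left_inv hf
  have h1 : ∀ i, fderiv ℝ (trans (EV n) a x) (chartAt (EV n) a x)
      (fderiv ℝ (trans (EV n) x a) (chartAt (EV n) x x) (e i)) = e i := fun i =>
    fderiv_trans_back a hf (e i)
  unfold chFs chF
  ext1
  · exact hx
  · simp only
    funext i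
    rw [hx]
    exact h1 i

theorem chF_chFs (a : M) {y : EV n × (ι → EV n)} (hy : y.1 ∈ (chartAt (EV n) a).target) :
    chF a (chFs a y) = y := by
  have hx : (chartAt (EV n) a).symm y.1 ∈ (chartAt (EV n) a).source :=
    (chartAt (EV n) a).map_target hy
  refine Prod.ext ((chartAt (EV n) a).right_inv hy) ?_
  funext i
  have h := fderiv_trans_forth a hx (y.2 i)
  rw [(chartAt (EV n) a).right_inv hy] at h
  exact h

theorem continuousAt_chF [Nonempty ι] (a : M) {f : LF ι n M}
    (hf : f.pt ∈ (chartAt (EV n) a).source) : ContinuousAt (chF a) f := by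
  refine ContinuousAt.prodMk ?_ ?_
  · exact ContinuousAt.comp (g := chartAt (EV n) a) ((chartAt (EV n) a).continuousAt hf)
      continuous_LF_pt.continuousAt
  · refine continuousAt_pi.2 fun i => ?_
    have h1 : ContinuousAt (fun f : LF ι n M => chT a (f.vec i)) f :=
      ContinuousAt.comp (g := chT a) (continuousAt_chT a (p := f.vec i) hf)
        (continuous_vec i).continuousAt
    exact h1.snd

theorem continuousAt_chFs (a : M) {y : EV n × (ι → EV n)}
    (hy : y.1 ∈ (chartAt (EV n) a).target) : ContinuousAt (chFs (ι := ι) a) y := by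
  rw [isInducing_vec.continuousAt_iff]
  refine continuousAt_pi.2 fun i => ?_
  have h1 : ContinuousAt (fun y : EV n × (ι → EV n) => (y.1, y.2 i)) y :=
    continuousAt_fst.prodMk ((continuous_apply i).continuousAt.comp continuousAt_snd)
  exact ContinuousAt.comp (g := chTs a) (f := fun y : EV n × (ι → EV n) => (y.1, y.2 i))
    (continuousAt_chTs a (y := (y.1, y.2 i)) hy) h1

/-- change of charts -/
theorem chF_chFs_trans (a b : M) {y : EV n × (ι → EV n)} (hy : y.1 ∈ (chartAt (EV n) a).target)
    (hb : (chartAt (EV n) a).symm y.1 ∈ (chartAt (EV n) b).source) :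
    chF b (chFs a y) = (trans (EV n) a b y.1, fun i => fderiv ℝ (trans (EV n) a b) y.1 (y.2 i)) := by
  refine Prod.ext rfl ?_
  funext i
  have hx : (chartAt (EV n) a).symm y.1 ∈ (chartAt (EV n) ((chartAt (EV n) a).symm y.1)).source :=
    mem_chart_source _ _
  exact P255.fderiv_trans_comp (E := EV n) a ((chartAt (EV n) a).symm y.1) b hy hx hb (y.2 i)

theorem inner_chF (g : RMetric (EV n) M) (a : M) {f : LF ι n M}
    (hf : f.pt ∈ (chartAt (EV n) a).source) (i j : ι) :
    (coefL g a (chF a f).1 ((chF a f).2 i) ((chF a f).2 j) : ℝ) =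
      g.inner f.pt (f.e i) (f.e j) :=
  (inner_eq_coefL g a hf (f.e i) (f.e j)).trans (ip_eq g f.pt (f.e i) (f.e j))

theorem inner_chFs (g : RMetric (EV n) M) (a : M) {y : EV n × (ι → EV n)}
    (hy : y.1 ∈ (chartAt (EV n) a).target) (i j : ι) :
    g.inner (chFs a y).pt ((chFs a y).e i) ((chFs a y).e j) = coefL g a y.1 (y.2 i) (y.2 j) := by
  have hx : (chFs a y).pt ∈ (chartAt (EV n) a).source := (chartAt (EV n) a).map_target hy
  rw [← inner_chF g a hx, chF_chFs a hy]

end Charts

/-! ### topology -/

section Top

variable [Nonempty ι]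

theorem continuous_inner (g : RMetric (EV n) M) (i j : ι) :
    Continuous (fun f : LF ι n M => (g.inner f.pt (f.e i) (f.e j) : ℝ)) := by
  rw [continuous_iff_continuousAt]
  intro f
  have hf : f.pt ∈ (chartAt (EV n) f.pt).source := mem_chart_source _ _
  set a := f.pt with ha
  have hc : ContinuousAt (chF a) f := continuousAt_chF a hf
  have h0 : ContinuousAt (coefL g a) (chF a f).1 :=
    ((P255.contDiffOn_coefL g a).contDiffAt ((chartAt (EV n) a).open_target.mem_nhds
      ((chartAt (EV n) a).map_source hf))).continuousAt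
  have h1 : ContinuousAt (fun f : LF ι n M => coefL g a (chF a f).1) f :=
    ContinuousAt.comp (g := coefL g a) h0 hc.fst
  have hi : ∀ i, ContinuousAt (fun f : LF ι n M => (chF a f).2 i) f := fun i =>
    (continuous_apply i).continuousAt.comp hc.snd
  have h2 : ContinuousAt (fun f : LF ι n M =>
      (coefL g a (chF a f).1 ((chF a f).2 i) ((chF a f).2 j) : ℝ)) f :=
    (h1.clm_apply (hi i)).clm_apply (hi j)
  refine h2.congr ?_
  filter_upwards [continuous_LF_pt.continuousAt.preimage_mem_nhds
    ((chartAt (EV n) a).open_source.mem_nhds hf)] with f' hf'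
  exact inner_chF g a hf' i j

theorem isEmbedding_vec : IsEmbedding (fun f : LF ι n M => f.vec) :=
  ⟨isInducing_vec, injective_vec⟩

theorem isClosedEmbedding_vec [T2Space M] : IsClosedEmbedding (fun f : LF ι n M => f.vec) := by
  refine ⟨isEmbedding_vec, ?_⟩
  have h : range (fun f : LF ι n M => f.vec) =
      {p : ι → TangentBundle 𝓘(ℝ, EV n) M | ∀ i, (p i).1 = (p (Classical.arbitrary ι)).1} := by
    ext p
    constructor
    · rintro ⟨f, rfl⟩ i
      rfl
    · intro hp
      refine ⟨⟨(p (Classical.arbitrary ι)).1, fun i => (p i).2⟩, ?_⟩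
      funext i
      have h1 := hp i
      have h2 : ∀ (x : M) (q : TangentBundle 𝓘(ℝ, EV n) M), q.1 = x →
          (⟨x, (q.2 : EV n)⟩ : TangentBundle 𝓘(ℝ, EV n) M) = q := by
        rintro x ⟨y, v⟩ rfl
        rfl
      exact h2 _ _ h1
  rw [h]
  simp only [Set.setOf_forall]
  exact isClosed_iInter fun i => isClosed_eq (continuous_pt_TB.comp (continuous_apply i))
    (continuous_pt_TB.comp (continuous_apply _))

theorem t2Space_LF [T2Space M] : T2Space (LF ι n M) := by
  have := t2Space_TB (n := n) (M := M)
  exact isEmbedding_vec.t2Space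

theorem secondCountable_LF [Countable ι] [CompactSpace M] :
    SecondCountableTopology (LF ι n M) := by
  have := secondCountable_TB (n := n) (M := M)
  exact isInducing_vec.secondCountableTopology

end Top

/-! ### orthonormal frames -/

/-- orthonormal frames of the tangent spaces (both orientations) -/
def Fr (g : RMetric (EV n) M) : Type :=
  {f : LF (Fin n) n M // ∀ i j, (g.inner f.pt (f.e i) (f.e j) : ℝ) = if i = j then 1 else 0}

namespace Fr

variable {g : RMetric (EV n) M}

instance : TopologicalSpace (Fr g) :=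
  inferInstanceAs (TopologicalSpace
    {f : LF (Fin n) n M // ∀ i j, (g.inner f.pt (f.e i) (f.e j) : ℝ) = if i = j then 1 else 0})

instance : MeasurableSpace (Fr g) := borel _

instance : BorelSpace (Fr g) := ⟨rfl⟩

/-- the base point -/
def pt (f : Fr g) : M := f.1.pt

/-- the vectors of the frame -/
def e (f : Fr g) (i : Fin n) : EV n := f.1.e i

theorem continuous_val : Continuous (fun f : Fr g => f.1) := continuous_subtype_val

theorem inner_e (f : Fr g) (i j : Fin n) :
    (g.inner f.pt (f.e i) (f.e j) : ℝ) = if i = j then 1 else 0 := f.2 i j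

theorem ext' {f f' : Fr g} (h1 : f.pt = f'.pt) (h2 : ∀ i, f.e i = f'.e i) : f = f' :=
  Subtype.ext (LF.ext h1 (funext h2))

/-- the `i`-th vector of the frame as a unit tangent vector -/
def ut (f : Fr g) (i : Fin n) : UT g := ⟨f.1.vec i, by
  have h := f.2 i i
  rw [if_pos rfl] at h
  exact h⟩

theorem continuous_ut (i : Fin n) : Continuous (fun f : Fr g => f.ut i) :=
  Continuous.subtype_mk ((continuous_vec i).comp continuous_val) _

variable [NeZero n]

theorem continuous_pt : Continuous (fun f : Fr g => f.pt) :=
  continuous_LF_pt.comp continuous_val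

theorem isClosed_orth (g : RMetric (EV n) M) : IsClosed {f : LF (Fin n) n M |
    ∀ i j, (g.inner f.pt (f.e i) (f.e j) : ℝ) = if i = j then 1 else 0} := by
  simp only [Set.setOf_forall]
  exact isClosed_iInter fun i => isClosed_iInter fun j =>
    isClosed_eq (continuous_inner g i j) continuous_const

variable [CompactSpace M] [T2Space M]

theorem isCompact_orth (g : RMetric (EV n) M) : IsCompact {f : LF (Fin n) n M |
    ∀ i j, (g.inner f.pt (f.e i) (f.e j) : ℝ) = if i = j then 1 else 0} := by
  have h1 : IsCompact (Set.pi univ fun _ : Fin n =>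
      {p : TangentBundle 𝓘(ℝ, EV n) M | g.inner p.1 p.2 p.2 = 1}) :=
    isCompact_univ_pi fun _ => isCompact_UT g
  have h2 := (isClosedEmbedding_vec (ι := Fin n) (n := n) (M := M)).isCompact_preimage h1
  refine h2.of_isClosed_subset (isClosed_orth g) ?_
  intro f hf i _
  have h := hf i i
  rw [if_pos rfl] at h
  exact h

instance : CompactSpace (Fr g) := isCompact_iff_compactSpace.1 (isCompact_orth g)

instance : T2Space (Fr g) := by
  have := t2Space_LF (ι := Fin n) (n := n) (M := M)
  exact inferInstanceAs (T2Space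
    {f : LF (Fin n) n M // ∀ i j, (g.inner f.pt (f.e i) (f.e j) : ℝ) = if i = j then 1 else 0})

instance : SecondCountableTopology (Fr g) := by
  have := secondCountable_LF (ι := Fin n) (n := n) (M := M)
  exact TopologicalSpace.Subtype.secondCountableTopology
    {f : LF (Fin n) n M | ∀ i j, (g.inner f.pt (f.e i) (f.e j) : ℝ) = if i = j then 1 else 0}

instance : TopologicalSpace.MetrizableSpace (Fr g) := by
  infer_instance

end Fr

end Vale.Agent.P207.Q
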