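import Vale.Agent.P207.Q.H916.Fr2

/-!
# P207, n = 3, block A2: horizontal curves in the bundle of families of tangent vectors

`IsHorOn g ξ c s`: on the set of times `s`, `c` is an integral curve of the horizontal vector
field whose value at `(x; e)` is the horizontal lift of `∑ ξᵢ eᵢ`.
-/

open scoped Manifold ContDiff ENNReal Topology
open Bundle MeasureTheory Set Filter Topology

noncomputable section

set_option maxSynthPendingDepth 3
set_option linter.unusedSectionVars false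

namespace Vale.Agent.P207.Q

open Vale.Agent.P255 (RMetric coefIn Gam Riem IsGeo Metric Npc ExpSys toMetric geo expg cc trans
  IsGeodesic coefL chris chrisB IsMetricOn covD)

variable {ι κ : Type} [Fintype ι] {n : ℕ}

/-- the state space of a chart -/
abbrev St (ι : Type) (n : ℕ) : Type := EV n × (ι → EV n)

/-- the horizontal vector field with direction `∑ ξᵢ eᵢ`, in a chart -/
def hF (G : EV n → EV n →L[ℝ] EV n →L[ℝ] ℝ) (ξ : ι → ℝ) (y : St ι n) : St ι n :=
  (∑ i, ξ i • y.2 i, fun j => - chris G y.1 (∑ i, ξ i • y.2 i) (y.2 j))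

section Coord

variable {G : EV n → EV n →L[ℝ] EV n →L[ℝ] ℝ} {U : Set (EV n)}

theorem contDiffAt_hF (h : IsMetricOn G U) (ξ : ι → ℝ) {y : St ι n} (hy : y.1 ∈ U) :
    ContDiffAt ℝ ∞ (hF G ξ) y := by
  have h0 : ContDiffAt ℝ ∞ (fun y : St ι n => chrisB G y.1) y :=
    (h.contDiffAt_chrisB hy).comp y contDiffAt_fst
  have hi : ∀ i, ContDiffAt ℝ ∞ (fun y : St ι n => y.2 i) y := fun i =>
    ((ContinuousLinearMap.proj (R := ℝ) (φ := fun _ : ι => EV n) i).contDiff.comp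
      contDiff_snd).contDiffAt
  have h1 : ContDiffAt ℝ ∞ (fun y : St ι n => ∑ i, ξ i • y.2 i) y :=
    ContDiffAt.sum fun i _ => (hi i).const_smul (ξ i)
  refine h1.prodMk ?_
  rw [contDiffAt_pi]
  intro j
  have h2 : (fun y : St ι n => - chris G y.1 (∑ i, ξ i • y.2 i) (y.2 j)) =
      fun y : St ι n => - chrisB G y.1 (∑ i, ξ i • y.2 i) (y.2 j) := by
    funext y
    rw [P255.chrisB_apply]
  rw [h2]
  exact ((h0.clm_apply h1).clm_apply (hi j)).neg

theorem contDiffOn_hF (h : IsMetricOn G U) (ξ : ι → ℝ) :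
    ContDiffOn ℝ ∞ (hF G ξ) (U ×ˢ (univ : Set (ι → EV n))) :=
  fun _ hy => (contDiffAt_hF h ξ hy.1).contDiffWithinAt

/-- invariance of the horizontal field under an isometric change of coordinates, along a curve -/
theorem hasDerivAt_hF_trans (h : IsMetricOn G U)
    {G₂ : EV n → EV n →L[ℝ] EV n →L[ℝ] ℝ} {U₂ : Set (EV n)} (h₂ : IsMetricOn G₂ U₂)
    {τ : EV n → EV n} {y : ℝ → St ι n} {t : ℝ} (hu : (y t).1 ∈ U) (hu₂ : τ (y t).1 ∈ U₂)
    (hτ : ContDiffAt ℝ ∞ τ (y t).1)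
    (hiso : ∀ᶠ x in 𝓝 (y t).1, ∀ v w,
      G₂ (τ x) (fderiv ℝ τ x v) (fderiv ℝ τ x w) = G x v w)
    {ξ : ι → ℝ} (hy : HasDerivAt y (hF G ξ (y t)) t) :
    HasDerivAt (fun r => ((τ (y r).1, fun i => fderiv ℝ τ (y r).1 ((y r).2 i)) : St ι n))
      (hF G₂ ξ (τ (y t).1, fun i => fderiv ℝ τ (y t).1 ((y t).2 i))) t := by
  have hτ0 : DifferentiableAt ℝ τ (y t).1 := hτ.differentiableAt (by simp)
  have hτ' : DifferentiableAt ℝ (fderiv ℝ τ) (y t).1 :=
    (hτ.fderiv_right (m := ∞) (by simp)).differentiableAt (by simp)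
  have hy1 : HasDerivAt (fun r => (y r).1) (∑ i, ξ i • (y t).2 i) t := hy.fst
  have hy2 : ∀ j, HasDerivAt (fun r => (y r).2 j)
      (- chris G (y t).1 (∑ i, ξ i • (y t).2 i) ((y t).2 j)) t :=
    fun j => (hasDerivAt_pi.1 hy.snd) j
  have h1 : HasDerivAt (fun r => τ (y r).1) (fderiv ℝ τ (y t).1 (∑ i, ξ i • (y t).2 i)) t :=
    hτ0.hasFDerivAt.comp_hasDerivAt t hy1
  have h2 : HasDerivAt (fun r => fderiv ℝ τ (y r).1)
      (fderiv ℝ (fderiv ℝ τ) (y t).1 (∑ i, ξ i • (y t).2 i)) t :=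
    hτ'.hasFDerivAt.comp_hasDerivAt t hy1
  refine HasDerivAt.prodMk ?_ ?_
  · refine h1.congr_deriv ?_
    simp only [map_sum, map_smul]
  · rw [hasDerivAt_pi]
    intro j
    refine (h2.clm_apply (hy2 j)).congr_deriv ?_
    rw [map_neg, h.chris_trans h₂ hu hu₂ hτ hiso]
    simp only [map_sum, map_smul]
    abel

/-- inner products of the vectors are constant along horizontal curves -/
theorem hasDerivAt_inner_hF (h : IsMetricOn G U) {ξ : ι → ℝ} {y : ℝ → St ι n} {t : ℝ}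
    (hu : (y t).1 ∈ U) (hy : HasDerivAt y (hF G ξ (y t)) t) (i j : ι) :
    HasDerivAt (fun r => (G (y r).1 ((y r).2 i) ((y r).2 j) : ℝ)) 0 t := by
  have hy1 : HasDerivAt (fun r => (y r).1) (∑ i, ξ i • (y t).2 i) t := hy.fst
  have hy2 : ∀ j, HasDerivAt (fun r => (y r).2 j)
      (- chris G (y t).1 (∑ i, ξ i • (y t).2 i) ((y t).2 j)) t :=
    fun j => (hasDerivAt_pi.1 hy.snd) j
  have h1 := h.hasDerivAt_inner hu hy1.differentiableAt (hy2 i).differentiableAt
    (hy2 j).differentiableAt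
  refine h1.congr_deriv ?_
  have h2 : ∀ j, covD G (fun r => (y r).1) (fun r => (y r).2 j) t = 0 := by
    intro j
    rw [covD, (hy2 j).deriv, hy1.deriv, neg_add_cancel]
  rw [h2, h2]
  simp

end Coord

variable {M : Type} [TopologicalSpace M] [ChartedSpace (EV n) M] [IsManifold 𝓘(ℝ, EV n) ∞ M]

/-- horizontal curves -/
structure IsHorOn (g : RMetric (EV n) M) (ξ : ι → ℝ) (c : ℝ → LF ι n M) (s : Set ℝ) : Prop where
  cont : ∀ t ∈ s, ContinuousAt c t
  eqn : ∀ a, ∀ t ∈ s, (c t).pt ∈ (chartAt (EV n) a).source →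
    HasDerivAt (fun r => chF a (c r)) (hF ((mt g).coef a) ξ (chF a (c t))) t

section Hor

variable {g : RMetric (EV n) M} {ξ : ι → ℝ} {c c' : ℝ → LF ι n M} {s s' : Set ℝ}

theorem IsHorOn.mono (h : IsHorOn g ξ c s) (hs : s' ⊆ s) : IsHorOn g ξ c s' :=
  ⟨fun t ht => h.cont t (hs ht), fun a t ht => h.eqn a t (hs ht)⟩

theorem IsHorOn.congr (h : IsHorOn g ξ c s) (hs : ∀ t ∈ s, c' =ᶠ[𝓝 t] c) : IsHorOn g ξ c' s := by
  refine ⟨fun t ht => (h.cont t ht).congr (hs t ht).symm, fun a t ht ha => ?_⟩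
  have h0 := (hs t ht).self_of_nhds
  have h1 := h.eqn a t ht (h0 ▸ ha)
  rw [h0]
  refine h1.congr_of_eventuallyEq ?_
  filter_upwards [hs t ht] with r hr
  rw [hr]

theorem IsHorOn.shift (h : IsHorOn g ξ c s) (t₀ : ℝ) :
    IsHorOn g ξ (fun t => c (t + t₀)) {t | t + t₀ ∈ s} := by
  refine ⟨fun t ht => ?_, fun a t ht ha => ?_⟩
  · exact ContinuousAt.comp (g := c) (h.cont _ ht) (by fun_prop)
  · exact (h.eqn a (t + t₀) ht ha).comp_add_const t t₀

/-- an integral curve in one chart is horizontal -/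
theorem isHorOn_of_chart (a : M) {y : ℝ → St ι n}
    (hy : ∀ t ∈ s, (y t).1 ∈ (chartAt (EV n) a).target ∧
      HasDerivAt y (hF ((mt g).coef a) ξ (y t)) t) :
    IsHorOn g ξ (fun t => chFs a (y t)) s := by
  refine ⟨fun t ht => ?_, fun b t ht hb => ?_⟩
  · exact ContinuousAt.comp (g := chFs a) (continuousAt_chFs a (hy t ht).1)
      (hy t ht).2.continuousAt
  · obtain ⟨h1, h2⟩ := hy t ht
    have hb' : (chartAt (EV n) a).symm (y t).1 ∈ (chartAt (EV n) b).source := hb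
    have hev := P255.eventually_trans a b h1 hb'
    have hc1 : ContinuousAt (fun r => (y r).1) t := h2.continuousAt.fst
    have h3 := hasDerivAt_hF_trans ((mt g).isMetricOn a) ((mt g).isMetricOn b) (τ := trans (EV n) a b)
      (y := y) (t := t) h1 ((chartAt (EV n) b).map_source hb')
      (P255.contDiffAt_trans a b h1 hb') (by
        filter_upwards [hev] with x hx
        exact (mt g).compat a b x hx.1 hx.2) (ξ := ξ) h2
    rw [chF_chFs_trans a b h1 hb']
    refine h3.congr_of_eventuallyEq ?_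
    filter_upwards [hc1.eventually hev] with r hr
    exact chF_chFs_trans a b hr.1 hr.2

theorem IsHorOn.hasDerivAt_inner (h : IsHorOn g ξ c s) {t : ℝ} (ht : t ∈ s) [Nonempty ι]
    (i j : ι) :
    HasDerivAt (fun r => (g.inner (c r).pt ((c r).e i) ((c r).e j) : ℝ)) 0 t := by
  have ha : (c t).pt ∈ (chartAt (EV n) (c t).pt).source := mem_chart_source _ _
  have h1 := h.eqn _ t ht ha
  have h2 := hasDerivAt_inner_hF ((mt g).isMetricOn (c t).pt)
    (y := fun r => chF (c t).pt (c r)) (t := t) ((chartAt (EV n) _).map_source ha) h1 i j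
  refine h2.congr_of_eventuallyEq ?_
  have h3 : ContinuousAt (fun r => (c r).pt) t :=
    ContinuousAt.comp (g := fun f : LF ι n M => f.pt) continuous_LF_pt.continuousAt (h.cont t ht)
  filter_upwards [h3.preimage_mem_nhds ((chartAt (EV n) (c t).pt).open_source.mem_nhds ha)]
    with r hr
  exact (inner_chF g (c t).pt hr i j).symm

/-- inner products are constant -/
theorem IsHorOn.inner_eq [Nonempty ι] (h : IsHorOn g ξ c s) (hs : IsOpen s)
    (hp : IsPreconnected s) {t t' : ℝ} (ht : t ∈ s) (ht' : t' ∈ s) (i j : ι) :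
    (g.inner (c t).pt ((c t).e i) ((c t).e j) : ℝ) =
      (g.inner (c t').pt ((c t').e i) ((c t').e j) : ℝ) := by
  have h1 : DifferentiableOn ℝ
      (fun r => (g.inner (c r).pt ((c r).e i) ((c r).e j) : ℝ)) s := fun r hr =>
    (h.hasDerivAt_inner hr i j).differentiableAt.differentiableWithinAt
  exact hs.is_const_of_deriv_eq_zero hp h1
    (fun r hr => (h.hasDerivAt_inner hr i j).deriv) ht ht'

/-- local uniqueness -/
theorem IsHorOn.eventuallyEq [Nonempty ι] (h : IsHorOn g ξ c s) (h' : IsHorOn g ξ c' s)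
    (hs : IsOpen s) {t : ℝ} (ht : t ∈ s) (he : c t = c' t) : c =ᶠ[𝓝 t] c' := by
  set a := (c t).pt with ha0
  have ha : (c t).pt ∈ (chartAt (EV n) a).source := mem_chart_source _ _
  have hG := (mt g).isMetricOn a
  set y0 : St ι n := chF a (c t) with hy0
  have hC : ContDiffAt ℝ 1 (hF ((mt g).coef a) ξ) y0 :=
    (contDiffAt_hF hG ξ (y := y0) ((chartAt (EV n) a).map_source ha)).of_le
      (by simp only [WithTop.one_le_coe, le_top])
  obtain ⟨K, V, hV, hK⟩ := hC.exists_lipschitzOnWith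
  have key : ∀ σ : ℝ → LF ι n M, IsHorOn g ξ σ s → σ t = c t →
      ∀ᶠ x in 𝓝 t, (HasDerivAt (fun x => chF a (σ x))
        (hF ((mt g).coef a) ξ (chF a (σ x))) x ∧ chF a (σ x) ∈ V) ∧
        (σ x).pt ∈ (chartAt (EV n) a).source := by
    intro σ hσ hσ0
    have hpt : ContinuousAt (fun r => (σ r).pt) t :=
      ContinuousAt.comp (g := fun f : LF ι n M => f.pt) continuous_LF_pt.continuousAt
        (hσ.cont t ht)
    have h1 := hpt.preimage_mem_nhds ((chartAt (EV n) a).open_source.mem_nhds (by rw [hσ0]; exact ha))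
    have h2 : ∀ᶠ x in 𝓝 t, x ∈ s := hs.mem_nhds ht
    have h3 : ContinuousAt (fun x => chF a (σ x)) t :=
      (hσ.eqn a t ht (by rw [hσ0]; exact ha)).continuousAt
    have h4 := h3.preimage_mem_nhds (t := V) (by rw [hσ0]; exact hV)
    filter_upwards [h1, h2, h4] with x hx1 hx2 hx4
    exact ⟨⟨hσ.eqn a x hx2 hx1, hx4⟩, hx1⟩
  have e1 := key c h rfl
  have e2 := key c' h' he.symm
  have := ODE_solution_unique_of_eventually (v := fun _ => hF ((mt g).coef a) ξ)
    (s := fun _ => V) (K := K) (t₀ := t)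
    (f := fun x => chF a (c x)) (g := fun x => chF a (c' x))
    (Eventually.of_forall fun _ => hK) (e1.mono fun _ h => h.1) (e2.mono fun _ h => h.1)
    (by rw [he])
  filter_upwards [this, e1, e2] with x hx hx1 hx2
  rw [← chFs_chF a hx1.2, ← chFs_chF a hx2.2, hx]

/-- uniqueness of horizontal curves -/
theorem IsHorOn.eqOn [Nonempty ι] [T2Space M] (h : IsHorOn g ξ c s) (h' : IsHorOn g ξ c' s)
    (hs : IsOpen s) (hp : IsPreconnected s) {t : ℝ} (ht : t ∈ s) (he : c t = c' t) :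
    EqOn c c' s := by
  have hT2 : T2Space (LF ι n M) := t2Space_LF
  set u : Set ℝ := {x | x ∈ s ∧ c =ᶠ[𝓝 x] c'} with hu
  have huo : IsOpen u := by
    rw [isOpen_iff_mem_nhds]
    rintro x ⟨hx, hx'⟩
    filter_upwards [hs.mem_nhds hx, hx'.eventually_nhds] with y hy hy'
    exact ⟨hy, hy'⟩
  have hne : (s ∩ u).Nonempty := ⟨t, ht, ht, h.eventuallyEq h' hs ht he⟩
  have hsub : s ⊆ u := by
    refine hp.subset_of_closure_inter_subset huo hne ?_
    rintro x ⟨hxc, hxs⟩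
    refine ⟨hxs, ?_⟩
    have hc := h.cont x hxs
    have hc' := h'.cont x hxs
    have hfreq : ∃ᶠ y in 𝓝 x, y ∈ u := mem_closure_iff_frequently.1 hxc
    have hxe : c x = c' x := by
      by_contra hne
      obtain ⟨A, B, hA, hB, hxA, hxB, hAB⟩ := t2_separation hne
      have h1 : ∀ᶠ y in 𝓝 x, c y ∈ A ∧ c' y ∈ B :=
        Filter.Eventually.and (hc (hA.mem_nhds hxA)) (hc' (hB.mem_nhds hxB))
      obtain ⟨y, hyu, hyA, hyB⟩ := (hfreq.and_eventually h1).exists
      rw [hyu.2.eq_of_nhds] at hyA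
      exact disjoint_left.1 hAB hyA hyB
    exact h.eventuallyEq h' hs hxs hxe
  intro x hx
  exact (hsub hx).2.eq_of_nhds

/-- flow boxes: smooth local flow of the horizontal field near a point -/
theorem exists_hor_box (g : RMetric (EV n) M) (ξ : ι → ℝ) (a : M) (y₀ : St ι n)
    (hy₀ : y₀.1 ∈ (chartAt (EV n) a).target) :
    ∃ ε > 0, ∃ W : Set (St ι n), IsOpen W ∧ y₀ ∈ W ∧
      (∀ y ∈ W, y.1 ∈ (chartAt (EV n) a).target) ∧
      ∃ Φ : ℝ → St ι n → St ι n,
      (∀ y ∈ W, Φ 0 y = y) ∧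
      (∀ y ∈ W, ∀ t ∈ Ioo (-ε) ε, (Φ t y).1 ∈ (chartAt (EV n) a).target) ∧
      ContDiffOn ℝ ∞ (fun p : ℝ × St ι n => Φ p.1 p.2) (Ioo (-ε) ε ×ˢ W) ∧
      ∀ y ∈ W, IsHorOn g ξ (fun t => chFs a (Φ t y)) (Ioo (-ε) ε) := by
  obtain ⟨ε, hε, W, hWo, hxW, Φ, hΦ0, hΦ, hΦ1⟩ :=
    P255.exists_flow_smooth (hF ((mt g).coef a) ξ)
    ((chartAt (EV n) a).target ×ˢ (univ : Set (ι → EV n)))
    ((chartAt (EV n) a).open_target.prod isOpen_univ)
    (contDiffOn_hF ((mt g).isMetricOn a) ξ) y₀ ⟨hy₀, mem_univ _⟩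
  refine ⟨ε, hε, W, hWo, hxW, ?_, Φ, hΦ0, fun y hy t ht => (hΦ y hy t ht).1.1, hΦ1, ?_⟩
  · intro x hx
    have h := (hΦ x hx 0 ⟨by linarith only [hε], hε⟩).1.1
    rwa [hΦ0 x hx] at h
  · intro y hy
    exact isHorOn_of_chart a fun t ht => ⟨(hΦ y hy t ht).1.1, (hΦ y hy t ht).2⟩

end Hor

end Vale.Agent.P207.Q
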